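import Mathlib

/-! P355: complete systems of mutually unbiased bases and their triple products. -/

namespace Vale.Agent.P355.Arith

/-- The standard complex Hilbert space `ℂ^n`. -/
abbrev Hn (n : ℕ) : Type := EuclideanSpace ℂ (Fin n)

/-- `m` orthonormal bases of `ℂ^n`, any two of which are mutually unbiased. -/
def PairwiseUnbiased {n m : ℕ} (B : Fin m → OrthonormalBasis (Fin n) ℂ (Hn n)) : Prop :=
  ∀ b c, b ≠ c → ∀ j k, ‖inner ℂ (B b j) (B c k)‖ ^ 2 = 1 / n

/-- `K` contains all the triple products `⟨x,y⟩⟨y,z⟩⟨z,x⟩` of vectors `x, y, z` of three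
different bases of the system. -/
def TriplesIn {n m : ℕ} (K : Subfield ℂ) (B : Fin m → OrthonormalBasis (Fin n) ℂ (Hn n)) :
    Prop :=
  ∀ a b c, a ≠ b → b ≠ c → c ≠ a → ∀ i j k,
    inner ℂ (B a i) (B b j) * inner ℂ (B b j) (B c k) * inner ℂ (B c k) (B a i) ∈ K

/-- `K` contains all the matrix entries `u_k * conj u_l` of the rank one projectors onto the
vectors `u` of the bases. -/
def DefinedOver {n m : ℕ} (K : Subfield ℂ) (B : Fin m → OrthonormalBasis (Fin n) ℂ (Hn n)) :
    Prop :=
  ∀ b j k l, (B b j) k * star ((B b j) l) ∈ K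

end Vale.Agent.P355.Arith
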