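import Mathlib

/-! P355: `d = x * conj x` has no solution in `ℚ(ζ_N)` if a prime `p` divides `d` exactly once and
`p ^ s ≡ -1 (mod N)`. -/

open Polynomial

namespace Vale.Agent.P355.Field

/-- Frobenius modulo `p` for integer polynomials. -/
theorem pow_eq_expand (p : ℕ) [Fact p.Prime] (s : ℕ) (P : ℤ[X]) :
    ∃ Q : ℤ[X], P ^ p ^ s = expand ℤ (p ^ s) P + C (p : ℤ) * Q := by
  have h1 : ∀ (s : ℕ) (f : (ZMod p)[X]), f ^ p ^ s = expand (ZMod p) (p ^ s) f := by
    intro s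
    induction s with
    | zero => intro f; simp
    | succ s ih =>
      intro f
      rw [pow_succ, pow_mul, ih, ← ZMod.expand_card, expand_expand, mul_comm]
  have h2 : (P ^ p ^ s - expand ℤ (p ^ s) P).map (Int.castRingHom (ZMod p)) = 0 := by
    rw [Polynomial.map_sub, Polynomial.map_pow, map_expand, h1, sub_self]
  have h3 : C (p : ℤ) ∣ P ^ p ^ s - expand ℤ (p ^ s) P := by
    rw [C_dvd_iff_dvd_coeff]
    intro i
    have h4 := congrArg (fun f => coeff f i) h2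
    simp only [coeff_map, coeff_zero] at h4
    exact (ZMod.intCast_zmod_eq_zero_iff_dvd _ p).1 h4
  obtain ⟨Q, hQ⟩ := h3
  exact ⟨Q, by rw [← hQ]; ring⟩

theorem aeval_star (ζ : ℂ) (P : ℤ[X]) : aeval (star ζ) P = star (aeval ζ P) := by
  have h := Polynomial.hom_eval₂ P (Int.castRingHom ℂ) (starRingEnd ℂ) ζ
  have h5 : (starRingEnd ℂ).comp (Int.castRingHom ℂ) = Int.castRingHom ℂ := RingHom.ext_int _ _
  rw [h5] at h
  rw [aeval_def, aeval_def]
  exact h.symm

variable {p s N : ℕ} {ζ : ℂ}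

theorem star_eq (h : N ∣ p ^ s + 1) (hζ : ζ ^ N = 1) : ζ ^ p ^ s = star ζ := by
  have h1 : ζ ^ (p ^ s + 1) = 1 := by
    obtain ⟨k, hk⟩ := h
    rw [hk, pow_mul, hζ, one_pow]
  have h2 : ‖ζ‖ = 1 := by
    have h3 : ‖ζ‖ ^ (p ^ s + 1) = 1 := by rw [← norm_pow, h1, norm_one]
    exact (pow_eq_one_iff_of_nonneg (norm_nonneg _) (Nat.succ_ne_zero _)).1 h3
  have h4 : ζ * star ζ = 1 := by
    have := Complex.mul_conj ζ
    rw [Complex.normSq_eq_norm_sq, h2] at this
    simpa using this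
  have h5 : ζ ≠ 0 := by
    intro h0
    rw [h0, norm_zero] at h2
    exact zero_ne_one h2
  apply mul_left_cancel₀ h5
  rw [h4, ← pow_succ', h1]

/-- the descent -/
theorem descent [hp : Fact p.Prime] (hs : 0 < s) (h : N ∣ p ^ s + 1) (hζ : ζ ^ N = 1) {d : ℕ}
    (hpd : p ∣ d) (hpd2 : ¬ p ^ 2 ∣ d) : ∀ m : ℕ, m ≠ 0 → ∀ P : ℤ[X],
    aeval ζ P * star (aeval ζ P) ≠ (d : ℂ) * (m : ℂ) ^ 2 := by
  intro m
  induction m using Nat.strong_induction_on with
  | _ m ih =>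
    intro hm P hP
    have hp0 : (p : ℂ) ≠ 0 := by exact_mod_cast hp.out.ne_zero
    have hint : IsIntegral ℤ ζ := by
      refine ⟨X ^ N - 1, ?_, ?_⟩
      · apply monic_X_pow_sub_C (1 : ℤ)
        rintro rfl
        simp at h
      · simp [hζ]
    obtain ⟨d', hd'⟩ := hpd
    obtain ⟨Q1, hQ1⟩ := pow_eq_expand p s P
    obtain ⟨Q2, hQ2⟩ := pow_eq_expand p (2 * s) P
    have hst := star_eq h hζ
    have e1 : (aeval ζ P) ^ p ^ s = star (aeval ζ P) + p * aeval ζ Q1 := by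
      have := congrArg (aeval ζ) hQ1
      rw [map_pow, map_add, map_mul, expand_aeval, aeval_C, hst, aeval_star] at this
      rw [this]
      simp
    have hzz : ζ ^ p ^ (2 * s) = ζ := by
      rw [two_mul, pow_add, pow_mul, hst, ← star_pow, hst, star_star]
    have e2 : (aeval ζ P) ^ p ^ (2 * s) = aeval ζ P + p * aeval ζ Q2 := by
      have := congrArg (aeval ζ) hQ2
      rw [map_pow, map_add, map_mul, expand_aeval, aeval_C, hzz] at this
      rw [this]
      simp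
    -- `X = p Y`
    have hle : p ^ s + 1 ≤ p ^ (2 * s) := by
      have h2 : 2 ≤ p ^ s := by
        calc 2 ≤ p := hp.out.two_le
          _ = p ^ 1 := (pow_one p).symm
          _ ≤ p ^ s := Nat.pow_le_pow_right hp.out.pos hs
      rw [two_mul, pow_add]
      nlinarith
    obtain ⟨t, ht⟩ := Nat.exists_eq_add_of_le hle
    have hY : aeval ζ P = p * aeval ζ ((C ((d' : ℤ) * (m : ℤ) ^ 2) + P * Q1) * P ^ t - Q2) := by
      have e3 : (aeval ζ P) ^ (p ^ s + 1) =
          p * ((d' : ℂ) * (m : ℂ) ^ 2 + aeval ζ P * aeval ζ Q1) := by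
        rw [pow_succ, e1, add_mul, mul_comm (star (aeval ζ P)), hP, hd']
        push_cast
        ring
      have e4 : (aeval ζ P) ^ p ^ (2 * s) =
          p * ((d' : ℂ) * (m : ℂ) ^ 2 + aeval ζ P * aeval ζ Q1) * (aeval ζ P) ^ t := by
        rw [ht, pow_add, e3]
      have e5 : aeval ζ P = (aeval ζ P) ^ p ^ (2 * s) - p * aeval ζ Q2 := by
        rw [e2]; ring
      rw [e5, e4]
      simp only [map_sub, map_mul, map_add, map_pow, aeval_C]
      simp
      ring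
    set R : ℤ[X] := (C ((d' : ℤ) * (m : ℤ) ^ 2) + P * Q1) * P ^ t - Q2 with hR
    have hYY : (p : ℂ) ^ 2 * (aeval ζ R * star (aeval ζ R)) = (d : ℂ) * (m : ℂ) ^ 2 := by
      rw [← hP, hY, star_mul']
      have : star (p : ℂ) = p := by simp
      rw [this]
      ring
    -- `Y * conj Y` is an integer
    have hYint : IsIntegral ℤ (aeval ζ R) := by
      have : aeval ζ R ∈ Algebra.adjoin ℤ {ζ} := aeval_mem_adjoin_singleton _ _
      have h6 := adjoin_le_integralClosure hint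
      exact h6 this
    have hYint2 : IsIntegral ℤ (star (aeval ζ R)) := by
      rw [← aeval_star]
      have hint' : IsIntegral ℤ (star ζ) := by
        rw [← hst]; exact hint.pow _
      have : aeval (star ζ) R ∈ Algebra.adjoin ℤ {star ζ} := aeval_mem_adjoin_singleton _ _
      exact adjoin_le_integralClosure hint' this
    have hprod : aeval ζ R * star (aeval ζ R) = ((((d * m ^ 2 : ℕ) : ℚ) / (p ^ 2 : ℕ) : ℚ) : ℂ) := by
      have hp2 : (p : ℂ) ^ 2 ≠ 0 := pow_ne_zero _ hp0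
      push_cast
      rw [eq_div_iff hp2, mul_comm, hYY]
    have hq : IsIntegral ℤ ((((d * m ^ 2 : ℕ) : ℚ) / (p ^ 2 : ℕ) : ℚ)) := by
      have h7 : IsIntegral ℤ ((((d * m ^ 2 : ℕ) : ℚ) / (p ^ 2 : ℕ) : ℚ) : ℂ) := by
        rw [← hprod]; exact hYint.mul hYint2
      exact (isIntegral_algebraMap_iff (R := ℤ) (A := ℚ) (B := ℂ)
        (algebraMap ℚ ℂ).injective).1 h7
    obtain ⟨z, hz⟩ := IsIntegrallyClosed.isIntegral_iff.1 hq
    have hdiv : p ^ 2 ∣ d * m ^ 2 := by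
      have hp2 : ((p ^ 2 : ℕ) : ℚ) ≠ 0 := by exact_mod_cast pow_ne_zero 2 hp.out.ne_zero
      rw [eq_div_iff hp2] at hz
      have hz2 : z * ((p ^ 2 : ℕ) : ℤ) = ((d * m ^ 2 : ℕ) : ℤ) := by
        have : ((z * ((p ^ 2 : ℕ) : ℤ) : ℤ) : ℚ) = (((d * m ^ 2 : ℕ) : ℤ) : ℚ) := by
          push_cast
          push_cast at hz
          simpa using hz
        exact_mod_cast this
      exact Int.natCast_dvd_natCast.1 ⟨z, by rw [← hz2]; ring⟩
    have hpm : p ∣ m := by
      by_contra hcon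
      have hcop : Nat.Coprime (p ^ 2) (m ^ 2) :=
        Nat.Coprime.pow 2 2 ((Nat.Prime.coprime_iff_not_dvd hp.out).2 hcon)
      exact hpd2 (hcop.dvd_of_dvd_mul_right hdiv)
    obtain ⟨m', hm'⟩ := hpm
    have hm'0 : m' ≠ 0 := by
      rintro rfl
      exact hm (by simpa using hm')
    have hlt : m' < m := by
      rw [hm']
      have := hp.out.two_le
      have : 0 < m' := Nat.pos_of_ne_zero hm'0
      nlinarith
    refine ih m' hlt hm'0 R ?_
    have hp2 : (p : ℂ) ^ 2 ≠ 0 := pow_ne_zero _ hp0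
    apply mul_left_cancel₀ hp2
    rw [hYY, hm']
    push_cast
    ring

/-- `d` is not of the form `x * conj x` with `x ∈ ℚ(ζ)`. -/
theorem no_norm (hp : p.Prime) (hs : 0 < s) (h : N ∣ p ^ s + 1) (hζ : ζ ^ N = 1) {d : ℕ}
    (hpd : p ∣ d) (hpd2 : ¬ p ^ 2 ∣ d) {x : ℂ} (hx : x ∈ Algebra.adjoin ℚ {ζ}) :
    x * star x ≠ d := by
  have : Fact p.Prime := ⟨hp⟩
  rw [Algebra.adjoin_singleton_eq_range_aeval] at hx
  obtain ⟨P, rfl⟩ := hx
  intro hP
  obtain ⟨b, hbM, hb⟩ := IsLocalization.integerNormalization_spec (nonZeroDivisors ℤ) P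
  have hb0 : (b : ℤ) ≠ 0 := nonZeroDivisors.ne_zero hbM
  set P' := IsLocalization.integerNormalization (nonZeroDivisors ℤ) P
  have h1 : aeval ζ P' = ((b : ℤ) : ℂ) * aeval ζ P := by
    have h2 := congrArg (aeval ζ) hb
    rw [aeval_map_algebraMap] at h2
    rw [h2]
    simp
  refine descent hs h hζ hpd hpd2 (b : ℤ).natAbs (Int.natAbs_ne_zero.2 hb0) P' ?_
  rw [h1, star_mul']
  have h3 : star (((b : ℤ) : ℂ)) = ((b : ℤ) : ℂ) := by simp
  have h4 : (((b : ℤ).natAbs : ℕ) : ℂ) ^ 2 = ((b : ℤ) : ℂ) ^ 2 := by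
    have := Int.natAbs_sq (b : ℤ)
    have h5 : ((((b : ℤ).natAbs : ℤ) ^ 2 : ℤ) : ℂ) = (((b : ℤ) ^ 2 : ℤ) : ℂ) := by rw [this]
    push_cast at h5
    simpa using h5
  rw [h3, h4]
  have hP' : aeval ζ P * star (aeval ζ P) = d := hP
  linear_combination (((b : ℤ) : ℂ) ^ 2) * hP'

end Vale.Agent.P355.Field
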