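import Vale.Agent.P355.CompleteMain
import Vale.Agent.P355.Field

namespace Vale.Agent.P355.Arith
namespace CompleteDegree

open IntermediateField Module

/-- complex conjugation over `ℚ` -/
noncomputable def conjQ : ℂ ≃ₐ[ℚ] ℂ := Complex.conjAe.restrictScalars ℚ

theorem conjQ_apply (z : ℂ) : conjQ z = star z := rfl

theorem conjQ_conjQ (z : ℂ) : conjQ (conjQ z) = z := by
  rw [conjQ_apply, conjQ_apply, star_star]

theorem integral_I : IsIntegral ℚ Complex.I := by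
  refine ⟨Polynomial.X ^ 2 + 1, by monicity!, ?_⟩
  simp

theorem finrank_F : finrank ℚ ℚ⟮Complex.I⟯ = 2 := by
  rw [adjoin.finrank integral_I]
  apply le_antisymm
  · have h1 : (Polynomial.X ^ 2 + 1 : Polynomial ℚ).Monic := by monicity!
    have h2 : Polynomial.aeval Complex.I (Polynomial.X ^ 2 + 1 : Polynomial ℚ) = 0 := by simp
    have h3 := minpoly.min ℚ Complex.I h1 h2
    have h4 : (Polynomial.X ^ 2 + 1 : Polynomial ℚ).degree = 2 := by compute_degree!
    rw [h4] at h3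
    exact Polynomial.natDegree_le_of_degree_le h3
  · rw [minpoly.two_le_natDegree_iff integral_I]
    rintro ⟨q, hq⟩
    have := congrArg Complex.im hq
    simp at this

theorem F_conj {x : ℂ} (hx : x ∈ ℚ⟮Complex.I⟯) : star x ∈ ℚ⟮Complex.I⟯ := by
  have : ℚ⟮Complex.I⟯ ≤ ℚ⟮Complex.I⟯.comap (conjQ : ℂ →ₐ[ℚ] ℂ) := by
    rw [adjoin_simple_le_iff]
    change conjQ Complex.I ∈ ℚ⟮Complex.I⟯
    have h : conjQ Complex.I = -Complex.I := by rw [conjQ_apply]; exact Complex.conj_I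
    rw [h]
    exact neg_mem (mem_adjoin_simple_self ℚ _)
  exact this hx

/-- conjugation on a conjugation stable set -/
def conjE {S : Type*} [SetLike S ℂ] [SubringClass S ℂ] (E : S) (h : ∀ x ∈ E, star x ∈ E) :
    E ≃+* E where
  toFun x := ⟨star x.1, h _ x.2⟩
  invFun x := ⟨star x.1, h _ x.2⟩
  left_inv _ := Subtype.ext (star_star _)
  right_inv _ := Subtype.ext (star_star _)
  map_mul' _ _ := Subtype.ext (star_mul' _ _)
  map_add' _ _ := Subtype.ext (star_add _ _)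

theorem four_dvd {K : IntermediateField ℚ ℂ} [FiniteDimensional ℚ K] (hI : Complex.I ∈ K)
    (hc : ∀ x ∈ K, star x ∈ K) {z : ℂ} (hz : z ∈ K) (h6 : z * star z = 6) :
    4 ∣ finrank ℚ K := by
  have hle : ℚ⟮Complex.I⟯ ≤ K := by rw [adjoin_simple_le_iff]; exact hI
  let E : IntermediateField ℚ⟮Complex.I⟯ ℂ := extendScalars hle
  have hfr : finrank ℚ ℚ⟮Complex.I⟯ * finrank ℚ⟮Complex.I⟯ E = finrank ℚ E :=
    finrank_mul_finrank ℚ ℚ⟮Complex.I⟯ E
  have hfr' : finrank ℚ E = finrank ℚ K := rfl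
  rw [finrank_F, hfr'] at hfr
  rw [← hfr]
  rcases Nat.even_or_odd (finrank ℚ⟮Complex.I⟯ E) with ⟨k, hk⟩ | ⟨k, hk⟩
  · rw [hk]; exact ⟨k, by ring⟩
  · exfalso
    let σF := conjE ℚ⟮Complex.I⟯ (fun x hx => F_conj hx)
    let σE := conjE E (fun x hx => hc x hx)
    let z' : E := ⟨z, hz⟩
    have hn := Algebra.norm_eq_of_equiv_equiv σF σE (RingHom.ext fun x => Subtype.ext rfl) z'
    have h1 : z' * σE z' = algebraMap ℚ⟮Complex.I⟯ E 6 := Subtype.ext (by
      change z * star z = _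
      rw [h6]; rfl)
    have h2 := congrArg (Algebra.norm ℚ⟮Complex.I⟯) h1
    rw [map_mul, Algebra.norm_algebraMap, hk] at h2
    have h3 : Algebra.norm ℚ⟮Complex.I⟯ (σE z') = σF (Algebra.norm ℚ⟮Complex.I⟯ z') := by
      rw [hn, RingEquiv.apply_symm_apply]
    rw [h3] at h2
    set w := Algebra.norm ℚ⟮Complex.I⟯ z' with hw
    have h4 : (w : ℂ) * star (w : ℂ) = 6 ^ (2 * k + 1) := congrArg Subtype.val h2
    have hwmem : (w : ℂ) ∈ Algebra.adjoin ℚ {Complex.I} := by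
      rw [← adjoin_simple_toSubalgebra_of_isAlgebraic integral_I.isAlgebraic]
      exact w.2
    have hx : ((6 : ℚ) ^ k)⁻¹ • (w : ℂ) ∈ Algebra.adjoin ℚ {Complex.I} :=
      Subalgebra.smul_mem _ hwmem _
    refine Field.no_norm (p := 3) (N := 4) (s := 1) Nat.prime_three one_pos (by norm_num)
      (ζ := Complex.I) (by simp) (d := 6) (by norm_num) (by norm_num) hx ?_
    have h5 : ((6 : ℚ) ^ k)⁻¹ • (w : ℂ) = ((6 : ℂ) ^ k)⁻¹ * w := by
      rw [Algebra.smul_def]; simp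
    rw [h5, star_mul']
    have h6' : star (((6 : ℂ) ^ k)⁻¹) = ((6 : ℂ) ^ k)⁻¹ := by
      simp
    rw [h6']
    have : ((6 : ℂ) ^ k)⁻¹ * (w : ℂ) * (((6 : ℂ) ^ k)⁻¹ * star (w : ℂ)) =
      (((6 : ℂ) ^ k)⁻¹) ^ 2 * ((w : ℂ) * star (w : ℂ)) := by ring
    rw [this, h4]
    field_simp
    push_cast
    ring

/-- A number field that contains `i` and all the triple products of at least three mutually
unbiased bases of `ℂ^6` has degree divisible by `4`. -/
theorem degree' {m : ℕ} (hm : 3 ≤ m) {B : Fin m → OrthonormalBasis (Fin 6) ℂ (Hn 6)}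
    (h : PairwiseUnbiased B) {K : IntermediateField ℚ ℂ} [FiniteDimensional ℚ K]
    (hI : Complex.I ∈ K) (hK : TriplesIn K.toSubfield B) :
    4 ∣ finrank ℚ K := by
  let K₀ : IntermediateField ℚ ℂ := K ⊓ K.comap (conjQ : ℂ →ₐ[ℚ] ℂ)
  have hmem : ∀ x, x ∈ K₀ ↔ x ∈ K ∧ star x ∈ K := fun x => by
    rw [IntermediateField.mem_inf]; rfl
  have hle : K₀ ≤ K := inf_le_left
  have hfin : FiniteDimensional ℚ K₀ :=
    FiniteDimensional.of_injective (IntermediateField.inclusion hle).toLinearMap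
      (IntermediateField.inclusion hle).injective
  have hstar : ∀ x y : Hn 6, star (inner ℂ x y) = inner ℂ y x := fun x y => inner_conj_symm _ _
  have hK₀ : TriplesIn K₀.toSubfield B := by
    intro a b c hab hbc hca i j k
    change _ ∈ K₀
    rw [hmem]
    refine ⟨hK a b c hab hbc hca i j k, ?_⟩
    have := hK a c b hca.symm hbc.symm hab.symm i k j
    have h1 : star (inner ℂ (B a i) (B b j) * inner ℂ (B b j) (B c k) *
        inner ℂ (B c k) (B a i)) = inner ℂ (B a i) (B c k) * inner ℂ (B c k) (B b j) *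
        inner ℂ (B b j) (B a i) := by
      rw [star_mul', star_mul', hstar, hstar, hstar]; ring
    rw [h1]; exact this
  have hc : ∀ x ∈ K₀, star x ∈ K₀ := fun x hx => by
    rw [hmem] at hx ⊢
    rw [star_star]; exact ⟨hx.2, hx.1⟩
  have hI₀ : Complex.I ∈ K₀ := by
    rw [hmem]
    have h1 : star Complex.I = -Complex.I := Complex.conj_I
    rw [h1]; exact ⟨hI, neg_mem hI⟩
  have h01 : (⟨0, by omega⟩ : Fin m) ≠ ⟨1, by omega⟩ := by simp
  have h12 : (⟨1, by omega⟩ : Fin m) ≠ ⟨2, by omega⟩ := by simp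
  have h20 : (⟨2, by omega⟩ : Fin m) ≠ ⟨0, by omega⟩ := by simp
  obtain ⟨z, hz, -, hzz⟩ := CompleteMain.exists_norm h (by norm_num) h01 h12 h20 hK₀
  have h4 : 4 ∣ finrank ℚ K₀ := four_dvd (K := K₀) hI₀ hc hz (by rw [hzz]; norm_num)
  exact h4.trans (IntermediateField.finrank_dvd_of_le_right hle)

/-- A number field that contains all the triple products of seven mutually unbiased bases of
`ℂ^6` has degree divisible by `4`. -/
theorem degree {B : Fin 7 → OrthonormalBasis (Fin 6) ℂ (Hn 6)} (h : PairwiseUnbiased B)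
    {K : IntermediateField ℚ ℂ} [FiniteDimensional ℚ K] (hK : TriplesIn K.toSubfield B) :
    4 ∣ finrank ℚ K :=
  degree' (by norm_num) h (CompleteMain.six h hK).1 hK

theorem I_notMem_odd {ζ : ℂ} {M : ℕ} (hM : Odd M) (hζ : ζ ^ M = 1) :
    Complex.I ∉ ℚ⟮ζ⟯ := by
  intro hI
  have hM0 : 0 < M := hM.pos
  have hd : orderOf ζ ∣ M := orderOf_dvd_of_pow_eq_one hζ
  have hdo : Odd (orderOf ζ) := hM.of_dvd_nat hd
  have hprim : IsPrimitiveRoot ζ (orderOf ζ) := IsPrimitiveRoot.orderOf ζ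
  have : NeZero (orderOf ζ) := ⟨hdo.pos.ne'⟩
  have hcyc : IsCyclotomicExtension {orderOf ζ} ℚ ℚ⟮ζ⟯ := by
    change IsCyclotomicExtension {orderOf ζ} ℚ (IntermediateField.adjoin ℚ {ζ}).toSubalgebra
    rw [IntermediateField.adjoin_simple_toSubalgebra_of_isAlgebraic
      (hprim.isIntegral hdo.pos).tower_top.isAlgebraic]
    exact hprim.adjoin_isCyclotomicExtension ℚ
  have hnf : NumberField ℚ⟮ζ⟯ := IsCyclotomicExtension.numberField {orderOf ζ} ℚ _
  have hI4 : IsPrimitiveRoot (⟨Complex.I, hI⟩ : ℚ⟮ζ⟯) 4 := by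
    have h4 : IsPrimitiveRoot Complex.I 4 := Complex.isPrimitiveRoot_I
    exact IsPrimitiveRoot.of_map_of_injective (f := algebraMap ℚ⟮ζ⟯ ℂ) h4
      (algebraMap ℚ⟮ζ⟯ ℂ).injective
  have := IsPrimitiveRoot.dvd_of_isCyclotomicExtension (orderOf ζ) hI4 (by norm_num)
  obtain ⟨k, hk⟩ := hdo
  omega

theorem I_notMem {ζ : ℂ} {N : ℕ} (hN : ¬ 4 ∣ N) (hζ : ζ ^ N = 1) : Complex.I ∉ ℚ⟮ζ⟯ := by
  rcases Nat.even_or_odd N with ⟨M, hM⟩ | ho
  · have hMo : Odd M := by
      rcases Nat.even_or_odd M with ⟨k, hk⟩ | h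
      · exact absurd ⟨k, by omega⟩ hN
      · exact h
    have h1 : ζ ^ M = 1 ∨ ζ ^ M = -1 := by
      have : ζ ^ M * ζ ^ M = 1 := by rw [← pow_add, ← hM, hζ]
      exact mul_self_eq_one_iff.1 this
    rcases h1 with h1 | h1
    · exact I_notMem_odd hMo h1
    · have h2 : (-ζ) ^ M = 1 := by rw [hMo.neg_pow, h1, neg_neg]
      intro hI
      refine I_notMem_odd hMo h2 ?_
      have : ℚ⟮ζ⟯ ≤ ℚ⟮-ζ⟯ := by
        rw [adjoin_simple_le_iff]
        have := neg_mem (mem_adjoin_simple_self ℚ (-ζ))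
        rwa [neg_neg] at this
      exact this hI
  · exact I_notMem_odd ho hζ

end CompleteDegree
end Vale.Agent.P355.Arith
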