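import Vale.Agent.P355.CompleteDefs

namespace Vale.Agent.P355.Arith
namespace CompleteDet

open Matrix

/-- entry of the projector -/
noncomputable def pr {n m : ℕ} (B : Fin m → OrthonormalBasis (Fin n) ℂ (Hn n)) (b : Fin m)
    (j k l : Fin n) : ℂ := (B b j) k * star ((B b j) l)

theorem gram {n m : ℕ} (B : Fin m → OrthonormalBasis (Fin n) ℂ (Hn n)) (b c : Fin m)
    (j i : Fin n) :
    ∑ q : Fin n × Fin n, pr B b j q.1 q.2 * star (pr B c i q.1 q.2) =
      ((‖inner ℂ (B b j) (B c i)‖ ^ 2 : ℝ) : ℂ) := by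
  rw [Fintype.sum_prod_type]
  have h1 : inner ℂ (B b j) (B c i) = ∑ k, (B c i) k * star ((B b j) k) := by
    simp [PiLp.inner_apply]
  have h2 : ((‖inner ℂ (B b j) (B c i)‖ ^ 2 : ℝ) : ℂ) =
      inner ℂ (B b j) (B c i) * star (inner ℂ (B b j) (B c i)) := by
    have := Complex.mul_conj (inner ℂ (B b j) (B c i))
    rw [Complex.normSq_eq_norm_sq] at this
    exact this.symm
  rw [h2, h1, star_sum, mul_comm, Finset.sum_mul_sum]
  refine Finset.sum_congr rfl fun k _ => Finset.sum_congr rfl fun l _ => ?_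
  simp only [pr, star_mul', star_star]
  ring

/-- the square matrix of size `n^2` -/
noncomputable def A {n : ℕ} (B : Fin (n + 1) → OrthonormalBasis (Fin n) ℂ (Hn n)) :
    Matrix (Fin n × Fin n) (Fin n × Fin n) ℂ :=
  fun p q => pr B p.1.castSucc p.2 q.1 q.2 + pr B (Fin.last n) p.1 q.1 q.2

theorem gram_val {n m : ℕ} {B : Fin m → OrthonormalBasis (Fin n) ℂ (Hn n)}
    (h : PairwiseUnbiased B) (b c : Fin m) (j i : Fin n) :
    ∑ q : Fin n × Fin n, pr B b j q.1 q.2 * star (pr B c i q.1 q.2) =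
      if b = c then (if j = i then 1 else 0) else 1 / (n : ℂ) := by
  rw [gram]
  split_ifs with h1 h2
  · subst h1; subst h2
    simp
  · subst h1
    simp [(B b).inner_eq_ite, h2]
  · rw [h b c h1]; push_cast; rfl

theorem A_mul {n : ℕ} (hn : 0 < n) {B : Fin (n + 1) → OrthonormalBasis (Fin n) ℂ (Hn n)}
    (h : PairwiseUnbiased B) (p q : Fin n × Fin n) :
    (A B * (A B)ᴴ) p q = (if p = q then 1 else 0) + (if p.1 = q.1 then 1 - 1 / (n : ℂ) else 0)
      + 3 / (n : ℂ) := by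
  have hn' : (n : ℂ) ≠ 0 := by exact_mod_cast hn.ne'
  have e1 : ∀ b : Fin n, (b.castSucc = Fin.last n) = False := fun b => by
    simp [Fin.castSucc_ne_last]
  have e2 : ∀ b : Fin n, (Fin.last n = b.castSucc) = False := fun b => by
    simp [(Fin.castSucc_ne_last b).symm]
  have : (A B * (A B)ᴴ) p q =
      ∑ r : Fin n × Fin n, pr B p.1.castSucc p.2 r.1 r.2 * star (pr B q.1.castSucc q.2 r.1 r.2)
      + ∑ r : Fin n × Fin n, pr B p.1.castSucc p.2 r.1 r.2 *
          star (pr B (Fin.last n) q.1 r.1 r.2)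
      + ∑ r : Fin n × Fin n, pr B (Fin.last n) p.1 r.1 r.2 *
          star (pr B q.1.castSucc q.2 r.1 r.2)
      + ∑ r : Fin n × Fin n, pr B (Fin.last n) p.1 r.1 r.2 *
          star (pr B (Fin.last n) q.1 r.1 r.2) := by
    rw [Matrix.mul_apply, ← Finset.sum_add_distrib, ← Finset.sum_add_distrib,
      ← Finset.sum_add_distrib]
    refine Finset.sum_congr rfl fun r _ => ?_
    simp only [Matrix.conjTranspose_apply, A, star_add]
    ring
  rw [this, gram_val h, gram_val h, gram_val h, gram_val h]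
  rcases p with ⟨p1, p2⟩
  rcases q with ⟨q1, q2⟩
  simp only [e1, e2, if_false, Fin.castSucc_inj, if_true, Prod.mk.injEq]
  by_cases h1 : p1 = q1
  · by_cases h2 : p2 = q2
    · simp only [h1, h2, if_true, and_self]
      ring
    · simp only [h1, h2, if_true, if_false, and_false]
      ring
  · simp only [h1, if_false, false_and]
    ring

/-- the incidence matrix of the first coordinate -/
def E (n : ℕ) : Matrix (Fin n × Fin n) (Fin n) ℂ := fun p c => if p.1 = c then 1 else 0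

/-- the all-one matrix -/
def J (n : ℕ) : Matrix (Fin n) (Fin n) ℂ := fun _ _ => 1

theorem EtE (n : ℕ) : (E n)ᵀ * E n = (n : ℂ) • (1 : Matrix (Fin n) (Fin n) ℂ) := by
  ext c d
  simp only [Matrix.mul_apply, Matrix.transpose_apply, E, Fintype.sum_prod_type,
    Matrix.smul_apply, smul_eq_mul]
  by_cases h : c = d
  · subst h
    simp
  · simp only [Matrix.one_apply, h, if_false, mul_zero]
    refine Finset.sum_eq_zero fun x _ => Finset.sum_eq_zero fun y _ => ?_
    by_cases hx : x = c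
    · subst hx
      simp [h]
    · simp [hx]

theorem A_mul' {n : ℕ} (hn : 0 < n) {B : Fin (n + 1) → OrthonormalBasis (Fin n) ℂ (Hn n)}
    (h : PairwiseUnbiased B) :
    A B * (A B)ᴴ = 1 + E n * (((1 - 1 / (n : ℂ)) • (1 : Matrix (Fin n) (Fin n) ℂ) +
      (3 / (n : ℂ)) • J n) * (E n)ᵀ) := by
  ext p q
  rw [A_mul hn h]
  rw [Matrix.add_apply, Matrix.one_apply, Matrix.add_mul, Matrix.mul_add, Matrix.add_apply]
  have h1 : (E n * ((1 - 1 / (n : ℂ)) • (1 : Matrix (Fin n) (Fin n) ℂ) * (E n)ᵀ)) p q =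
      if p.1 = q.1 then 1 - 1 / (n : ℂ) else 0 := by
    rw [Matrix.smul_mul, Matrix.one_mul, Matrix.mul_smul, Matrix.smul_apply, Matrix.mul_apply]
    simp only [E, Matrix.transpose_apply, smul_eq_mul]
    by_cases h : p.1 = q.1
    · simp [h]
    · simp [h]
  have h2 : (E n * ((3 / (n : ℂ)) • J n * (E n)ᵀ)) p q = 3 / (n : ℂ) := by
    rw [Matrix.smul_mul, Matrix.mul_smul, Matrix.smul_apply]
    simp [E, J, Matrix.mul_apply, Matrix.transpose_apply]
  rw [h1, h2]
  ring

theorem det_gram {n : ℕ} (hn : 0 < n) {B : Fin (n + 1) → OrthonormalBasis (Fin n) ℂ (Hn n)}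
    (h : PairwiseUnbiased B) : (A B * (A B)ᴴ).det = 4 * (n : ℂ) ^ n := by
  have hn' : (n : ℂ) ≠ 0 := by exact_mod_cast hn.ne'
  rw [A_mul' hn h, Matrix.det_one_add_mul_comm, Matrix.mul_assoc, EtE]
  have : (1 : Matrix (Fin n) (Fin n) ℂ) + ((1 - 1 / (n : ℂ)) • (1 : Matrix (Fin n) (Fin n) ℂ) +
      (3 / (n : ℂ)) • J n) * ((n : ℂ) • (1 : Matrix (Fin n) (Fin n) ℂ)) =
      (n : ℂ) • (1 + replicateCol Unit (fun _ : Fin n => 3 / (n : ℂ)) *
        replicateRow Unit (fun _ : Fin n => (1 : ℂ))) := by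
    ext i j
    simp only [Matrix.mul_smul, Matrix.mul_one, Matrix.add_apply, Matrix.smul_apply,
      Matrix.mul_apply, J, smul_eq_mul, replicateCol_apply, replicateRow_apply,
      Finset.univ_unique, Finset.sum_singleton]
    field_simp
    ring
  rw [this, Matrix.det_smul, Matrix.det_one_add_replicateCol_mul_replicateRow]
  simp only [dotProduct, Finset.sum_const, Finset.card_univ, Fintype.card_fin, nsmul_eq_mul,
    one_mul]
  field_simp
  norm_num

theorem star_A {n : ℕ} (B : Fin (n + 1) → OrthonormalBasis (Fin n) ℂ (Hn n)) :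
    (A B)ᴴ = ((A B).submatrix id (Equiv.prodComm (Fin n) (Fin n)))ᵀ := by
  ext p q
  simp only [Matrix.conjTranspose_apply, Matrix.transpose_apply, Matrix.submatrix_apply, A, pr,
    star_add, star_mul', star_star, id, Equiv.prodComm_apply, Prod.fst_swap, Prod.snd_swap]
  ring

theorem sign_swap (n : ℕ) :
    Equiv.Perm.sign (Equiv.prodComm (Fin n) (Fin n) : Equiv.Perm (Fin n × Fin n)) =
      (-1) ^ (n * (n - 1) / 2) := by
  have h : (Equiv.prodComm (Fin n) (Fin n) : Equiv.Perm (Fin n × Fin n)) ^ 2 = 1 := by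
    ext p <;> simp [pow_two]
  rw [Equiv.Perm.sign_of_pow_two_eq_one h]
  have hc : Fintype.card (Function.fixedPoints
      (Equiv.prodComm (Fin n) (Fin n) : Equiv.Perm (Fin n × Fin n))) = n := by
    refine (Fintype.card_congr (β := Fin n) ?_).trans (Fintype.card_fin n)
    refine ⟨fun p => p.1.1, fun i => ⟨(i, i), rfl⟩, ?_, fun i => rfl⟩
    rintro ⟨⟨i, j⟩, hij⟩
    have : (j, i) = (i, j) := hij
    have h1 : j = i := congrArg Prod.fst this
    subst h1
    rfl
  rw [hc, Fintype.card_prod, Fintype.card_fin]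
  congr 2
  rw [Nat.mul_sub, Nat.mul_one]

/-- `(det A)^2 = (-1)^(n(n-1)/2) * 4 * n^n`. -/
theorem det_sq {n : ℕ} (hn : 0 < n) {B : Fin (n + 1) → OrthonormalBasis (Fin n) ℂ (Hn n)}
    (h : PairwiseUnbiased B) :
    (A B).det ^ 2 = (-1) ^ (n * (n - 1) / 2) * (4 * (n : ℂ) ^ n) := by
  have h1 := det_gram hn h
  rw [Matrix.det_mul, star_A, Matrix.det_transpose, Matrix.det_permute', sign_swap] at h1
  rw [← h1]
  push_cast
  have h2 : ((-1 : ℂ) ^ (n * (n - 1) / 2)) * ((-1 : ℂ) ^ (n * (n - 1) / 2)) = 1 := by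
    rw [← mul_pow]; simp
  calc (A B).det ^ 2 = ((-1 : ℂ) ^ (n * (n - 1) / 2)) * ((-1 : ℂ) ^ (n * (n - 1) / 2)) *
        (A B).det ^ 2 := by rw [h2, one_mul]
    _ = _ := by ring

end CompleteDet
end Vale.Agent.P355.Arith
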