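import Vale.Agent.P355.CompleteDet

namespace Vale.Agent.P355.Arith
namespace CompleteMain

open CompleteDet

theorem det_mem {n : ℕ} {K : Subfield ℂ} {B : Fin (n + 1) → OrthonormalBasis (Fin n) ℂ (Hn n)}
    (h : DefinedOver K B) : (A B).det ∈ K := by
  rw [Matrix.det_apply]
  refine sum_mem fun σ _ => ?_
  rw [Units.smul_def]
  refine zsmul_mem (prod_mem fun p _ => ?_) _
  exact add_mem (h _ _ _ _) (h _ _ _ _)

theorem square_of_defined {n : ℕ} (hn : 0 < n) {K : Subfield ℂ}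
    {B : Fin (n + 1) → OrthonormalBasis (Fin n) ℂ (Hn n)} (h : PairwiseUnbiased B)
    (hK : DefinedOver K B) :
    ∃ x ∈ K, x ^ 2 = (-1) ^ (n * (n - 1) / 2) * (n : ℂ) ^ n := by
  refine ⟨(A B).det / 2, div_mem (det_mem hK) (by simp), ?_⟩
  rw [div_pow, det_sq hn h]
  ring

/-- a change of orthonormal coordinates -/
theorem exists_frame {n : ℕ} [Nonempty (Fin n)] (e : OrthonormalBasis (Fin n) ℂ (Hn n)) (φ : Fin n → ℂ)
    (hφ : ∀ k, ‖φ k‖ = 1) :
    ∃ L : Hn n ≃ₗᵢ[ℂ] Hn n, ∀ x k, (L x) k = φ k * inner ℂ (e k) x := by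
  have ho : Orthonormal ℂ (fun k => star (φ k) • e k) := by
    refine ⟨fun k => ?_, fun k l hkl => ?_⟩
    · rw [norm_smul, norm_star, hφ, one_mul]; exact e.orthonormal.1 k
    · simp only [inner_smul_left, inner_smul_right]
      have := e.orthonormal.2 hkl
      rw [this]; simp
  have hc : Fintype.card (Fin n) = Module.finrank ℂ (Hn n) := by simp
  let b := basisOfOrthonormalOfCardEqFinrank ho hc
  have hb : ⇑b = fun k => star (φ k) • e k := coe_basisOfOrthonormalOfCardEqFinrank ho hc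
  let ob := b.toOrthonormalBasis (by rw [hb]; exact ho)
  refine ⟨ob.repr, fun x k => ?_⟩
  rw [OrthonormalBasis.repr_apply_apply]
  have : ob k = star (φ k) • e k := by
    simp [ob, hb]
  rw [this, inner_smul_left]
  simp

theorem inner_mul_symm' {n : ℕ} (x y : Hn n) {r : ℝ} (h : ‖inner ℂ x y‖ ^ 2 = r) :
    inner ℂ x y * inner ℂ y x = (r : ℂ) := by
  have h1 : inner ℂ y x = star (inner ℂ x y) := (inner_conj_symm y x).symm
  have := Complex.mul_conj (inner ℂ x y)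
  rw [Complex.normSq_eq_norm_sq, h] at this
  rw [h1]
  exact this

theorem exists_defined {n m : ℕ} {K : Subfield ℂ}
    {B : Fin m → OrthonormalBasis (Fin n) ℂ (Hn n)} (h : PairwiseUnbiased B)
    (hn : 0 < n) {a₀ a₁ a₂ : Fin m} (h01 : a₀ ≠ a₁) (h12 : a₁ ≠ a₂) (h20 : a₂ ≠ a₀)
    (hK : TriplesIn K B) :
    ∃ B' : Fin m → OrthonormalBasis (Fin n) ℂ (Hn n), PairwiseUnbiased B' ∧
      DefinedOver K B' := by
  have : Nonempty (Fin n) := ⟨⟨0, hn⟩⟩
  have hn' : (n : ℂ) ≠ 0 := by exact_mod_cast hn.ne'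
  have hnK : (n : ℂ) ∈ K := natCast_mem K n
  have hnr : (0 : ℝ) < n := by exact_mod_cast hn
  have key : ∀ b c, b ≠ c → ∀ j k, inner ℂ (B b j) (B c k) * inner ℂ (B c k) (B b j) =
      1 / (n : ℂ) := fun b c hbc j k => by
    rw [inner_mul_symm' _ _ (h b c hbc j k)]; push_cast; rfl
  let o : Fin n := ⟨0, hn⟩
  obtain ⟨L, hL⟩ := exists_frame (B a₀)
    (fun k => ((Real.sqrt n : ℝ) : ℂ) * inner ℂ (B a₁ o) (B a₀ k)) (fun k => by
      have h1 := h a₁ a₀ h01.symm o k
      have h2 : ‖((Real.sqrt n : ℝ) : ℂ) * inner ℂ (B a₁ o) (B a₀ k)‖ ^ 2 = 1 := by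
        rw [norm_mul, mul_pow, h1, Complex.norm_real, Real.norm_of_nonneg (Real.sqrt_nonneg _),
          Real.sq_sqrt hnr.le]
        field_simp
      exact (pow_eq_one_iff_of_nonneg (norm_nonneg _) two_ne_zero).1 h2)
  refine ⟨fun b => (B b).map L, fun b c hbc j k => ?_, fun b j k l => ?_⟩
  · simp only [OrthonormalBasis.map_apply, LinearIsometryEquiv.inner_map_map]
    exact h b c hbc j k
  · simp only [OrthonormalBasis.map_apply, hL]
    have hs : ((Real.sqrt n : ℝ) : ℂ) * ((Real.sqrt n : ℝ) : ℂ) = n := by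
      rw [← Complex.ofReal_mul, Real.mul_self_sqrt hnr.le]; simp
    have hc1 : star (inner ℂ (B a₁ o) (B a₀ l)) = inner ℂ (B a₀ l) (B a₁ o) :=
      inner_conj_symm _ _
    have hc2 : star (inner ℂ (B a₀ l) (B b j)) = inner ℂ (B b j) (B a₀ l) :=
      inner_conj_symm _ _
    have hc3 : star ((Real.sqrt n : ℝ) : ℂ) = ((Real.sqrt n : ℝ) : ℂ) := Complex.conj_ofReal _
    have hform : ((Real.sqrt n : ℝ) : ℂ) * inner ℂ (B a₁ o) (B a₀ k) *
          inner ℂ (B a₀ k) (B b j) *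
        star (((Real.sqrt n : ℝ) : ℂ) * inner ℂ (B a₁ o) (B a₀ l) *
          inner ℂ (B a₀ l) (B b j)) =
        n * (inner ℂ (B a₁ o) (B a₀ k) * inner ℂ (B a₀ k) (B b j) *
          inner ℂ (B b j) (B a₀ l) * inner ℂ (B a₀ l) (B a₁ o)) := by
      rw [star_mul', star_mul', hc1, hc2, hc3, ← hs]
      ring
    rw [hform]
    by_cases hb0 : b = a₀
    · subst hb0
      by_cases hkj : k = j
      · by_cases hlj : l = j
        · subst hkj; subst hlj
          have h1 := key a₁ b h01.symm o l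
          have h2 : inner ℂ (B b l) (B b l) = (1 : ℂ) := by simp
          rw [h2, mul_one, mul_one, h1]
          exact mul_mem hnK (div_mem (one_mem K) hnK)
        · have h2 : inner ℂ (B b j) (B b l) = (0 : ℂ) := (B b).orthonormal.2 (Ne.symm hlj)
          rw [h2]; simp
      · have h2 : inner ℂ (B b k) (B b j) = (0 : ℂ) := (B b).orthonormal.2 hkj
        rw [h2]; simp
    · by_cases hb1 : b = a₁
      · subst hb1
        have t1 := hK a₂ b a₀ h12.symm h01.symm h20.symm o o k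
        have t2 := hK a₂ a₀ b h20 h01 h12 o k j
        have t3 := hK a₂ b a₀ h12.symm h01.symm h20.symm o j l
        have t4 := hK a₂ a₀ b h20 h01 h12 o l o
        have e1 := key a₂ b h12.symm o o
        have e2 := key a₂ a₀ h20 o k
        have e3 := key a₂ b h12.symm o j
        have e4 := key a₂ a₀ h20 o l
        have hprod := mul_mem (mul_mem (mul_mem t1 t2) t3) t4
        have heq : (n : ℂ) * (inner ℂ (B b o) (B a₀ k) * inner ℂ (B a₀ k) (B b j) *
            inner ℂ (B b j) (B a₀ l) * inner ℂ (B a₀ l) (B b o)) =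
            (n : ℂ) ^ 5 * (inner ℂ (B a₂ o) (B b o) * inner ℂ (B b o) (B a₀ k) *
              inner ℂ (B a₀ k) (B a₂ o) * (inner ℂ (B a₂ o) (B a₀ k) *
              inner ℂ (B a₀ k) (B b j) * inner ℂ (B b j) (B a₂ o)) *
              (inner ℂ (B a₂ o) (B b j) * inner ℂ (B b j) (B a₀ l) *
              inner ℂ (B a₀ l) (B a₂ o)) * (inner ℂ (B a₂ o) (B a₀ l) *
              inner ℂ (B a₀ l) (B b o) * inner ℂ (B b o) (B a₂ o))) := by
          have : (n : ℂ) ^ 5 * (inner ℂ (B a₂ o) (B b o) * inner ℂ (B b o) (B a₀ k) *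
              inner ℂ (B a₀ k) (B a₂ o) * (inner ℂ (B a₂ o) (B a₀ k) *
              inner ℂ (B a₀ k) (B b j) * inner ℂ (B b j) (B a₂ o)) *
              (inner ℂ (B a₂ o) (B b j) * inner ℂ (B b j) (B a₀ l) *
              inner ℂ (B a₀ l) (B a₂ o)) * (inner ℂ (B a₂ o) (B a₀ l) *
              inner ℂ (B a₀ l) (B b o) * inner ℂ (B b o) (B a₂ o))) =
              (n : ℂ) ^ 5 * ((inner ℂ (B a₂ o) (B b o) * inner ℂ (B b o) (B a₂ o)) *
              (inner ℂ (B a₂ o) (B a₀ k) * inner ℂ (B a₀ k) (B a₂ o)) *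
              (inner ℂ (B a₂ o) (B b j) * inner ℂ (B b j) (B a₂ o)) *
              (inner ℂ (B a₂ o) (B a₀ l) * inner ℂ (B a₀ l) (B a₂ o))) *
              (inner ℂ (B b o) (B a₀ k) * inner ℂ (B a₀ k) (B b j) *
            inner ℂ (B b j) (B a₀ l) * inner ℂ (B a₀ l) (B b o)) := by ring
          rw [this, e1, e2, e3, e4]
          field_simp
        rw [heq]
        exact mul_mem (pow_mem hnK 5) hprod
      · have t1 := hK a₁ a₀ b h01.symm (Ne.symm hb0) hb1 o k j
        have t2 := hK a₁ b a₀ (Ne.symm hb1) hb0 h01 o j l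
        have e1 := key b a₁ hb1 j o
        have heq : (n : ℂ) * (inner ℂ (B a₁ o) (B a₀ k) * inner ℂ (B a₀ k) (B b j) *
            inner ℂ (B b j) (B a₀ l) * inner ℂ (B a₀ l) (B a₁ o)) =
            (n : ℂ) ^ 2 * (inner ℂ (B a₁ o) (B a₀ k) * inner ℂ (B a₀ k) (B b j) *
              inner ℂ (B b j) (B a₁ o) * (inner ℂ (B a₁ o) (B b j) *
              inner ℂ (B b j) (B a₀ l) * inner ℂ (B a₀ l) (B a₁ o))) := by
          have : (n : ℂ) ^ 2 * (inner ℂ (B a₁ o) (B a₀ k) * inner ℂ (B a₀ k) (B b j) *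
              inner ℂ (B b j) (B a₁ o) * (inner ℂ (B a₁ o) (B b j) *
              inner ℂ (B b j) (B a₀ l) * inner ℂ (B a₀ l) (B a₁ o))) =
              (n : ℂ) ^ 2 * (inner ℂ (B b j) (B a₁ o) * inner ℂ (B a₁ o) (B b j)) *
              (inner ℂ (B a₁ o) (B a₀ k) * inner ℂ (B a₀ k) (B b j) *
            inner ℂ (B b j) (B a₀ l) * inner ℂ (B a₀ l) (B a₁ o)) := by ring
          rw [this, e1]
          field_simp
        rw [heq]
        exact mul_mem (pow_mem hnK 2) (mul_mem t1 t2)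

theorem exists_norm {n m : ℕ} {K : Subfield ℂ}
    {B : Fin m → OrthonormalBasis (Fin n) ℂ (Hn n)} (h : PairwiseUnbiased B)
    (hn : 0 < n) {a₀ a₁ a₂ : Fin m} (h01 : a₀ ≠ a₁) (h12 : a₁ ≠ a₂) (h20 : a₂ ≠ a₀)
    (hK : TriplesIn K B) :
    ∃ z ∈ K, star z ∈ K ∧ z * star z = (n : ℂ) := by
  have hn' : (n : ℂ) ≠ 0 := by exact_mod_cast hn.ne'
  have hnK : (n : ℂ) ∈ K := natCast_mem K n
  let o : Fin n := ⟨0, hn⟩
  have key : ∀ b c, b ≠ c → ∀ j k, inner ℂ (B b j) (B c k) * inner ℂ (B c k) (B b j) =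
      1 / (n : ℂ) := fun b c hbc j k => by
    rw [inner_mul_symm' _ _ (h b c hbc j k)]; push_cast; rfl
  have hstar : ∀ x y : Hn n, star (inner ℂ x y) = inner ℂ y x := fun x y => inner_conj_symm _ _
  have e1 := key a₀ a₁ h01 o o
  have e2 := key a₁ a₂ h12 o o
  have e3 := key a₂ a₀ h20 o o
  refine ⟨(n : ℂ) ^ 2 * (inner ℂ (B a₀ o) (B a₁ o) * inner ℂ (B a₁ o) (B a₂ o) *
    inner ℂ (B a₂ o) (B a₀ o)), mul_mem (pow_mem hnK 2) (hK a₀ a₁ a₂ h01 h12 h20 o o o), ?_, ?_⟩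
  · have hs : star ((n : ℂ) ^ 2 * (inner ℂ (B a₀ o) (B a₁ o) * inner ℂ (B a₁ o) (B a₂ o) *
      inner ℂ (B a₂ o) (B a₀ o))) = (n : ℂ) ^ 2 * (inner ℂ (B a₀ o) (B a₂ o) *
        inner ℂ (B a₂ o) (B a₁ o) * inner ℂ (B a₁ o) (B a₀ o)) := by
      rw [star_mul', star_mul', star_mul', hstar, hstar, hstar, star_pow, star_natCast]
      ring
    rw [hs]
    exact mul_mem (pow_mem hnK 2) (hK a₀ a₂ a₁ h20.symm h12.symm h01.symm o o o)
  · rw [star_mul', star_mul', star_mul', hstar, hstar, hstar, star_pow, star_natCast]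
    have : (n : ℂ) ^ 2 * (inner ℂ (B a₀ o) (B a₁ o) * inner ℂ (B a₁ o) (B a₂ o) *
        inner ℂ (B a₂ o) (B a₀ o)) * ((n : ℂ) ^ 2 * (inner ℂ (B a₁ o) (B a₀ o) *
        inner ℂ (B a₂ o) (B a₁ o) * inner ℂ (B a₀ o) (B a₂ o))) =
        (n : ℂ) ^ 4 * ((inner ℂ (B a₀ o) (B a₁ o) * inner ℂ (B a₁ o) (B a₀ o)) *
        (inner ℂ (B a₁ o) (B a₂ o) * inner ℂ (B a₂ o) (B a₁ o)) *
        (inner ℂ (B a₂ o) (B a₀ o) * inner ℂ (B a₀ o) (B a₂ o))) := by ring
    rw [this, e1, e2, e3]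
    field_simp

/-- The general form: `n + 1` mutually unbiased bases of `ℂ^n`. -/
theorem complete {n : ℕ} (hn : 2 ≤ n) {K : Subfield ℂ}
    {B : Fin (n + 1) → OrthonormalBasis (Fin n) ℂ (Hn n)} (h : PairwiseUnbiased B)
    (hK : TriplesIn K B) :
    (∃ x ∈ K, x ^ 2 = (-1) ^ (n * (n - 1) / 2) * (n : ℂ) ^ n) ∧
      ∃ z ∈ K, star z ∈ K ∧ z * star z = (n : ℂ) := by
  have hn0 : 0 < n := by omega
  have h01 : (⟨0, by omega⟩ : Fin (n + 1)) ≠ ⟨1, by omega⟩ := by simp
  have h12 : (⟨1, by omega⟩ : Fin (n + 1)) ≠ ⟨2, by omega⟩ := by simp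
  have h20 : (⟨2, by omega⟩ : Fin (n + 1)) ≠ ⟨0, by omega⟩ := by simp
  refine ⟨?_, exists_norm h hn0 h01 h12 h20 hK⟩
  obtain ⟨B', h', hK'⟩ := exists_defined h hn0 h01 h12 h20 hK
  exact square_of_defined hn0 h' hK'

/-- Seven mutually unbiased bases of `ℂ^6`. -/
theorem six {K : Subfield ℂ} {B : Fin 7 → OrthonormalBasis (Fin 6) ℂ (Hn 6)}
    (h : PairwiseUnbiased B) (hK : TriplesIn K B) :
    Complex.I ∈ K ∧ ∃ a b : ℝ, (a : ℂ) ∈ K ∧ (b : ℂ) ∈ K ∧ a ^ 2 + b ^ 2 = 6 := by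
  obtain ⟨⟨x, hx, hx2⟩, z, hz, hz', hzz⟩ := complete (n := 6) (by norm_num) h hK
  have hI : Complex.I ∈ K := by
    have h1 : (x / 216) ^ 2 = Complex.I ^ 2 := by
      rw [div_pow, hx2, Complex.I_sq]
      norm_num
    have h216 : (216 : ℂ) ∈ K := ofNat_mem K 216
    rcases sq_eq_sq_iff_eq_or_eq_neg.1 h1 with h2 | h2
    · rw [← h2]; exact div_mem hx h216
    · have : Complex.I = -(x / 216) := by rw [h2, neg_neg]
      rw [this]; exact neg_mem (div_mem hx h216)
  refine ⟨hI, z.re, z.im, ?_, ?_, ?_⟩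
  · have : (z.re : ℂ) = (z + star z) / 2 := by
      have := Complex.add_conj z
      have h2 : z + star z = ((2 * z.re : ℝ) : ℂ) := this
      rw [h2]; push_cast; ring
    rw [this]
    exact div_mem (add_mem hz hz') (ofNat_mem K 2)
  · have : (z.im : ℂ) = (z - star z) / (2 * Complex.I) := by
      have := Complex.sub_conj z
      have h2 : z - star z = ((2 * z.im : ℝ) : ℂ) * Complex.I := this
      rw [h2]; push_cast
      field_simp
    rw [this]
    exact div_mem (sub_mem hz hz') (mul_mem (ofNat_mem K 2) hI)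
  · have h1 : z * star z = ((Complex.normSq z : ℝ) : ℂ) := Complex.mul_conj z
    rw [h1] at hzz
    have h2 : Complex.normSq z = 6 := by exact_mod_cast hzz
    rw [Complex.normSq_apply] at h2
    rw [← h2]; ring

theorem inner_eq_sum {n : ℕ} (x y : Hn n) : inner ℂ x y = ∑ k, y k * star (x k) := by
  simp [PiLp.inner_apply]

/-- a system defined over `K` has its triple products in `K` -/
theorem triples_of_defined {n m : ℕ} {K : Subfield ℂ}
    {B : Fin m → OrthonormalBasis (Fin n) ℂ (Hn n)} (h : DefinedOver K B) : TriplesIn K B := by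
  intro a b c _ _ _ i j k
  have : inner ℂ (B a i) (B b j) * inner ℂ (B b j) (B c k) * inner ℂ (B c k) (B a i) =
      ∑ p, ∑ q, ∑ r, ((B b j) p * star ((B b j) q)) * ((B c k) q * star ((B c k) r)) *
        ((B a i) r * star ((B a i) p)) := by
    rw [inner_eq_sum, inner_eq_sum, inner_eq_sum, Finset.sum_mul_sum, Finset.sum_mul]
    refine Finset.sum_congr rfl fun p _ => ?_
    rw [Finset.sum_mul]
    refine Finset.sum_congr rfl fun q _ => ?_
    rw [Finset.mul_sum]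
    refine Finset.sum_congr rfl fun r _ => ?_
    ring
  rw [this]
  exact sum_mem fun p _ => sum_mem fun q _ => sum_mem fun r _ =>
    mul_mem (mul_mem (h _ _ _ _) (h _ _ _ _)) (h _ _ _ _)

/-- vectors proportional to vectors with coordinates in a conjugation stable field -/
theorem defined_of_scaled {n m : ℕ} {K : Subfield ℂ} (hc : ∀ x ∈ K, star x ∈ K)
    {B : Fin m → OrthonormalBasis (Fin n) ℂ (Hn n)}
    (h : ∀ b j, ∃ c : ℂ, c ≠ 0 ∧ ∀ k, c * (B b j) k ∈ K) : DefinedOver K B := by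
  intro b j k l
  obtain ⟨c, hc0, hcK⟩ := h b j
  have h1 : inner ℂ (B b j) (B b j) = (1 : ℂ) := by simp
  rw [inner_eq_sum] at h1
  have h2 : c * star c ∈ K := by
    have : c * star c = ∑ i, (c * (B b j) i) * star (c * (B b j) i) := by
      calc c * star c = c * star c * ∑ i, (B b j) i * star ((B b j) i) := by rw [h1, mul_one]
        _ = _ := by
          rw [Finset.mul_sum]
          refine Finset.sum_congr rfl fun i _ => ?_
          rw [star_mul']; ring
    rw [this]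
    exact sum_mem fun i _ => mul_mem (hcK i) (hc _ (hcK i))
  have h3 : (B b j) k * star ((B b j) l) =
      (c * (B b j) k) * star (c * (B b j) l) / (c * star c) := by
    rw [star_mul']
    have : star c ≠ 0 := star_ne_zero.2 hc0
    field_simp
  rw [h3]
  exact div_mem (mul_mem (hcK k) (hc _ (hcK l))) h2

end CompleteMain
end Vale.Agent.P355.Arith
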