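import Mathlib

/-! P355: six roots of unity whose sum has absolute value `√6`: a self-conjugacy argument. -/

namespace Vale.Agent.P355

open Complex

/-- rational algebraic integers are integers -/
theorem int_of_isIntegral (a : ℚ) (h : IsIntegral ℤ (a : ℂ)) : ∃ n : ℤ, (n : ℚ) = a := by
  have h1 : IsIntegral ℤ (algebraMap ℚ ℂ a) := by
    rw [eq_ratCast]
    exact h
  have h2 : IsIntegral ℤ a :=
    (isIntegral_algebraMap_iff (algebraMap ℚ ℂ).injective).1 h1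
  obtain ⟨n, hn⟩ := (IsIntegrallyClosed.isIntegral_iff (R := ℤ) (K := ℚ)).1 h2
  exact ⟨n, by rw [← hn]; simp⟩

/-- the ring of all algebraic integers -/
abbrev O := integralClosure ℤ ℂ

theorem isIntegral_conj {z : ℂ} (h : IsIntegral ℤ z) : IsIntegral ℤ ((starRingEnd ℂ) z) :=
  h.map ((starRingEnd ℂ).toIntAlgHom)

/-- a prime is not a unit -/
theorem nonunit (p : ℕ) (hp : p.Prime) : (p : O) ∈ nonunits O := by
  intro hu
  obtain ⟨u, hu⟩ := hu.exists_right_inv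
  have h1 : (p : ℂ) * (u : ℂ) = 1 := by
    have := congrArg (Subtype.val) hu
    simpa using this
  have hp0 : (p : ℂ) ≠ 0 := by exact_mod_cast hp.ne_zero
  have h2 : (u : ℂ) = (((1 : ℚ) / p : ℚ) : ℂ) := by
    push_cast
    field_simp
    rw [mul_comm]
    exact h1
  have h3 : IsIntegral ℤ (((1 : ℚ) / p : ℚ) : ℂ) := by
    rw [← h2]
    exact u.2
  obtain ⟨n, hn⟩ := int_of_isIntegral _ h3
  have hp0' : (p : ℚ) ≠ 0 := by exact_mod_cast hp.ne_zero
  have h4 : (n : ℚ) * p = 1 := by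
    rw [hn]
    field_simp
  have h5 : n * (p : ℤ) = 1 := by exact_mod_cast h4
  have h6 : (p : ℤ) ∣ 1 := ⟨n, by rw [mul_comm]; exact h5.symm⟩
  have h7 : p ∣ 1 := by exact_mod_cast h6
  exact hp.one_lt.ne' (Nat.dvd_one.1 h7)

/-- The argument with the Frobenius map. -/
theorem core (p : ℕ) (hp : p.Prime) (s : ℕ) (hs : 1 ≤ s) {n : ℕ} (t t' : Fin n → O)
    (h1 : ∀ i, t i * t' i = 1) (h2 : ∀ i, ∃ r : O, t i ^ (p ^ s + 1) = 1 + p * r)
    (k : ℕ) (hk : p ∣ k) (h3 : (∑ i, t i) * (∑ i, t' i) = (k : O)) :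
    ∃ z : O, ∑ i, t i = p * z := by
  have hpF : Fact p.Prime := ⟨hp⟩
  let I : Ideal O := Ideal.span {(p : O)}
  have hch : CharP (O ⧸ I) p := CharP.quotient O p (nonunit p hp)
  let f := Ideal.Quotient.mk I
  have hfp : f (p : O) = 0 := by
    rw [Ideal.Quotient.eq_zero_iff_mem]
    exact Ideal.mem_span_singleton_self _
  set q := p ^ s with hq
  have hq2 : 2 ≤ q := by
    calc 2 ≤ p := hp.two_le
      _ = p ^ 1 := (pow_one p).symm
      _ ≤ p ^ s := Nat.pow_le_pow_right hp.pos hs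
  have hu : ∀ i, f (t i) ^ (q + 1) = 1 := by
    intro i
    obtain ⟨r, hr⟩ := h2 i
    rw [← map_pow, hr, map_add, map_mul, hfp, zero_mul, add_zero, map_one]
  have hmul : ∀ i, f (t i) * f (t' i) = 1 := by
    intro i
    rw [← map_mul, h1, map_one]
  have hu' : ∀ i, f (t' i) ^ (q + 1) = 1 := by
    intro i
    calc f (t' i) ^ (q + 1) = f (t i) ^ (q + 1) * f (t' i) ^ (q + 1) := by rw [hu, one_mul]
      _ = (f (t i) * f (t' i)) ^ (q + 1) := (mul_pow _ _ _).symm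
      _ = 1 := by rw [hmul, one_pow]
  have e1 : ∀ i, f (t i) ^ q = f (t' i) := by
    intro i
    calc f (t i) ^ q = f (t i) ^ q * (f (t i) * f (t' i)) := by rw [hmul, mul_one]
      _ = f (t i) ^ (q + 1) * f (t' i) := by ring
      _ = f (t' i) := by rw [hu, one_mul]
  have e2 : ∀ i, f (t' i) ^ q = f (t i) := by
    intro i
    calc f (t' i) ^ q = f (t' i) ^ q * (f (t i) * f (t' i)) := by rw [hmul, mul_one]
      _ = f (t' i) ^ (q + 1) * f (t i) := by ring
      _ = f (t i) := by rw [hu', one_mul]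
  set X := f (∑ i, t i) with hX
  set Y := f (∑ i, t' i) with hY
  have hXY : X ^ q = Y := by
    rw [hX, hY, map_sum, map_sum, hq, sum_pow_char_pow]
    exact Finset.sum_congr rfl fun i _ => e1 i
  have hYX : Y ^ q = X := by
    rw [hX, hY, map_sum, map_sum, hq, sum_pow_char_pow]
    exact Finset.sum_congr rfl fun i _ => e2 i
  have h0 : X * Y = 0 := by
    rw [hX, hY, ← map_mul, h3]
    obtain ⟨m, rfl⟩ := hk
    rw [Nat.cast_mul, map_mul, hfp, zero_mul]
  have hX0 : X = 0 := by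
    calc X = Y ^ q := hYX.symm
      _ = (X ^ q) ^ q := by rw [hXY]
      _ = X ^ (q * q) := (pow_mul X q q).symm
      _ = X ^ (q + 1 + (q * q - (q + 1))) := by
          congr 1
          have : q + 1 ≤ q * q := by nlinarith
          omega
      _ = (X ^ q * X) * X ^ (q * q - (q + 1)) := by rw [pow_add, pow_succ]
      _ = 0 := by rw [hXY, mul_comm Y X, h0, zero_mul]
  rw [hX, Ideal.Quotient.eq_zero_iff_mem, Ideal.mem_span_singleton] at hX0
  exact hX0

/-- Sums of `N`-th roots of unity. -/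
theorem no_sum (p : ℕ) (hp : p.Prime) (s : ℕ) (hs : 1 ≤ s) {n : ℕ} (t : Fin n → ℂ) (N : ℕ)
    (hN : N ≠ 0) (ht : ∀ i, t i ^ N = 1)
    (hpow : ∀ z : ℂ, z ^ N = 1 → z ^ (p ^ s + 1) = 1 ∨ (p = 2 ∧ z ^ (p ^ s + 1) = -1))
    (k : ℕ) (hk : p ∣ k) (hk2 : ¬ p ^ 2 ∣ k) : Complex.normSq (∑ i, t i) ≠ k := by
  intro h
  have hI : ∀ z : ℂ, z ^ N = 1 → IsIntegral ℤ z := fun z hz =>
    IsIntegral.of_pow (Nat.pos_of_ne_zero hN) (by rw [hz]; exact isIntegral_one)
  have hz0 : ∀ z : ℂ, z ^ N = 1 → ‖z‖ = 1 := fun z hz => Complex.norm_eq_one_of_pow_eq_one hz hN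
  have hc : ∀ z : ℂ, z ^ N = 1 → z * (starRingEnd ℂ) z = 1 := by
    intro z hz
    rw [Complex.mul_conj, Complex.normSq_eq_norm_sq, hz0 z hz]
    simp
  let T : Fin n → O := fun i => ⟨t i, hI _ (ht i)⟩
  let T' : Fin n → O := fun i => ⟨(starRingEnd ℂ) (t i), isIntegral_conj (hI _ (ht i))⟩
  have hsumT : ((∑ i, T i : O) : ℂ) = ∑ i, t i := by
    rw [AddSubmonoidClass.coe_finsetSum]
  have hsumT' : ((∑ i, T' i : O) : ℂ) = (starRingEnd ℂ) (∑ i, t i) := by
    rw [AddSubmonoidClass.coe_finsetSum, map_sum]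
  obtain ⟨z, hz⟩ := core p hp s hs T T'
    (fun i => Subtype.ext (by
      show t i * (starRingEnd ℂ) (t i) = 1
      exact hc _ (ht i)))
    (fun i => by
      rcases hpow (t i) (ht i) with h1 | ⟨rfl, h1⟩
      · refine ⟨0, Subtype.ext ?_⟩
        rw [mul_zero, add_zero]
        exact h1
      · refine ⟨-1, Subtype.ext ?_⟩
        show t i ^ (2 ^ s + 1) = ((1 + ((2 : ℕ) : O) * (-1) : O) : ℂ)
        have e : ((((2 : ℕ) : O)) : ℂ) = ((2 : ℕ) : ℂ) := map_natCast (algebraMap O ℂ) 2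
        rw [h1, Subalgebra.coe_add, Subalgebra.coe_mul, e, Subalgebra.coe_neg, Subalgebra.coe_one]
        norm_num)
    k hk (Subtype.ext (by
      show ((∑ i, T i : O) : ℂ) * ((∑ i, T' i : O) : ℂ) = ((k : O) : ℂ)
      rw [hsumT, hsumT', Complex.mul_conj, h]
      simp))
  have hz' : ∑ i, t i = p * (z : ℂ) := by
    rw [← hsumT, hz]
    simp
  -- `|z|² = k / p²`
  have h1 : (z : ℂ) * (starRingEnd ℂ) (z : ℂ) = (((k : ℚ) / p ^ 2 : ℚ) : ℂ) := by
    have h2 : Complex.normSq (p * (z : ℂ)) = k := by rw [← hz', h]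
    rw [Complex.normSq_mul, Complex.normSq_natCast] at h2
    rw [Complex.mul_conj]
    have hp0 : (p : ℝ) ≠ 0 := by exact_mod_cast hp.ne_zero
    have h3 : Complex.normSq (z : ℂ) = (k : ℝ) / p ^ 2 := by
      field_simp
      linarith
    rw [h3]
    push_cast
    ring
  have h2 : IsIntegral ℤ (((k : ℚ) / p ^ 2 : ℚ) : ℂ) := by
    rw [← h1]
    exact z.2.mul (isIntegral_conj z.2)
  obtain ⟨m, hm⟩ := int_of_isIntegral _ h2
  have hp0 : (p : ℚ) ≠ 0 := by exact_mod_cast hp.ne_zero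
  have h3 : (m : ℚ) * p ^ 2 = k := by
    rw [hm]
    field_simp
  have h4 : m * (p : ℤ) ^ 2 = k := by exact_mod_cast h3
  apply hk2
  have h5 : ((p ^ 2 : ℕ) : ℤ) ∣ (k : ℤ) := ⟨m, by push_cast; rw [mul_comm]; exact h4.symm⟩
  exact_mod_cast h5

/-- Six `N`-th roots of unity never have a sum of absolute value `√6`, if `N` divides
`2 (2^s + 1)` or `3^s + 1`. -/
theorem no_six (N s : ℕ) (hs : 1 ≤ s) (hN : N ∣ 2 * (2 ^ s + 1) ∨ N ∣ 3 ^ s + 1)
    (t : Fin 6 → ℂ) (ht : ∀ i, t i ^ N = 1) : Complex.normSq (∑ i, t i) ≠ 6 := by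
  have hN0 : N ≠ 0 := by
    rintro rfl
    rcases hN with h | h
    · rw [zero_dvd_iff] at h
      exact absurd h (by positivity)
    · rw [zero_dvd_iff] at h
      exact absurd h (by positivity)
  rcases hN with h | h
  · refine no_sum 2 Nat.prime_two s hs t N hN0 ht (fun z hz => ?_) 6 (by norm_num) (by norm_num)
    obtain ⟨m, hm⟩ := h
    have h1 : (z ^ (2 ^ s + 1)) ^ 2 = 1 := by
      rw [← pow_mul, mul_comm (2 ^ s + 1) 2, hm, pow_mul, hz, one_pow]
    rw [pow_two, mul_self_eq_one_iff] at h1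
    rcases h1 with h2 | h2
    · exact Or.inl h2
    · exact Or.inr ⟨rfl, h2⟩
  · refine no_sum 3 Nat.prime_three s hs t N hN0 ht (fun z hz => Or.inl ?_) 6 (by norm_num)
      (by norm_num)
    obtain ⟨m, hm⟩ := h
    rw [hm, pow_mul, hz, one_pow]

end Vale.Agent.P355
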