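import Mathlib

/-! P355: definitions. -/

namespace Vale.Agent.P355

/-- the standard inner product of `ℂ^6`, conjugate linear in the first variable -/
noncomputable def dot (u v : Fin 6 → ℂ) : ℂ := ∑ i, star (u i) * v i

/-- `b 0, ..., b 5` is an orthonormal basis of `ℂ^6` -/
def IsONB (b : Fin 6 → Fin 6 → ℂ) : Prop := ∀ j k, dot (b j) (b k) = if j = k then 1 else 0

/-- `b` and `c` are mutually unbiased orthonormal bases of `ℂ^6` -/
def MU (b c : Fin 6 → Fin 6 → ℂ) : Prop :=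
  IsONB b ∧ IsONB c ∧ ∀ j k, ‖dot (b j) (c k)‖ ^ 2 = 1 / 6

/-- the cyclotomic field `ℚ(ζ)` -/
noncomputable def Q (ζ : ℂ) : Subalgebra ℚ ℂ := Algebra.adjoin ℚ {ζ}

/-- the triple product `⟨b_j, e_i⟩ ⟨e_i, c_k⟩` -/
noncomputable def tri (e b c : Fin 6 → Fin 6 → ℂ) (i j k : Fin 6) : ℂ :=
  dot (b j) (e i) * dot (e i) (c k)

/-- the ratios of the coordinates with respect to `e` of every vector of `b` lie in `ℚ(ζ)` -/
def Phases (ζ : ℂ) (e b : Fin 6 → Fin 6 → ℂ) : Prop :=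
  ∀ i i' j, dot (e i) (b j) / dot (e i') (b j) ∈ Q ζ

end Vale.Agent.P355
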