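import Vale.Agent.P355.Defs

/-! P355 (four bases): definitions. -/

namespace Vale.Agent.P355

/-- the coordinates of `v` with respect to `e` differ from each other by `N`-th roots of unity -/
def VecPhases (N : ℕ) (e : Fin 6 → Fin 6 → ℂ) (v : Fin 6 → ℂ) : Prop :=
  ∀ i i', (dot (e i) v / dot (e i') v) ^ N = 1

/-- there are `m` bases of `ℂ^6`, pairwise mutually unbiased, and all vectors of the others have
with respect to one of them coordinates which differ by `N`-th roots of unity -/
def HasBases (N m : ℕ) : Prop :=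
  ∃ (B : Fin m → Fin 6 → Fin 6 → ℂ) (r : Fin m), (∀ a a', a ≠ a' → MU (B a) (B a')) ∧
    ∀ a, a ≠ r → ∀ j, VecPhases N (B r) (B a j)

/-- the coordinates of `v` with respect to `e` differ from each other by roots of unity of an
order dividing `4 * 3 ^ b` for some `b` -/
def VecPhases3 (e : Fin 6 → Fin 6 → ℂ) (v : Fin 6 → ℂ) : Prop :=
  ∀ i i', ∃ b : ℕ, (dot (e i) v / dot (e i') v) ^ (4 * 3 ^ b) = 1

/-- there are `m` bases of `ℂ^6`, pairwise mutually unbiased, and all vectors of the others have
with respect to one of them coordinates which differ by roots of unity of an order dividing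
`4 * 3 ^ b` for some `b` -/
def HasBases3 (m : ℕ) : Prop :=
  ∃ (B : Fin m → Fin 6 → Fin 6 → ℂ) (r : Fin m), (∀ a a', a ≠ a' → MU (B a) (B a')) ∧
    ∀ a, a ≠ r → ∀ j, VecPhases3 (B r) (B a j)

end Vale.Agent.P355
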