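import Vale.Agent.P355.RepDefs

/-!
# P355 (four bases), row DESC: the number theory at the prime 3

If `X = Σ c_j w_j` with `3 ^ b`-th roots of unity `w_j` and `X ^ 2 + (v - v') ^ 2 = -6 v v'` with
`3 ^ b`-th roots of unity `v ≠ v'`, then `v / v'` is a primitive third root of unity. Otherwise
`T = X / (1 - v / v')` is an algebraic integer of `ℚ(ζ)`, hence in `ℤ[ζ]`, so `T` is congruent to
an integer modulo a maximal ideal above `3`, but `T ^ 2` is congruent to `-1`.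
-/

namespace Vale.Agent.P355

namespace Desc

/-- the ring of all algebraic integers -/
abbrev O := integralClosure ℤ ℂ

theorem mem_adjoin (b : ℕ) (ζ : ℂ) (hζ : IsPrimitiveRoot ζ (3 ^ b)) (T : ℂ)
    (hT : T ∈ IntermediateField.adjoin ℚ ({ζ} : Set ℂ)) (hint : IsIntegral ℤ T) :
    ∃ P : Polynomial ℤ, Polynomial.aeval ζ P = T := by
  have hne : NeZero (3 ^ b) := ⟨pow_ne_zero _ (by norm_num)⟩
  have hintζ : IsIntegral ℤ ζ := hζ.isIntegral (Nat.pos_of_ne_zero hne.out)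
  have halg : IsAlgebraic ℚ ζ := (hintζ.tower_top (A := ℚ)).isAlgebraic
  have hcyc : IsCyclotomicExtension {3 ^ b} ℚ (IntermediateField.adjoin ℚ ({ζ} : Set ℂ)) := by
    change IsCyclotomicExtension {3 ^ b} ℚ (IntermediateField.adjoin ℚ ({ζ} : Set ℂ)).toSubalgebra
    rw [IntermediateField.adjoin_simple_toSubalgebra_of_isAlgebraic halg]
    exact hζ.adjoin_isCyclotomicExtension ℚ
  have hp : Fact (Nat.Prime 3) := ⟨by norm_num⟩
  have hmem : ζ ∈ IntermediateField.adjoin ℚ ({ζ} : Set ℂ) :=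
    IntermediateField.mem_adjoin_simple_self ℚ ζ
  have hζK : IsPrimitiveRoot (⟨ζ, hmem⟩ : IntermediateField.adjoin ℚ ({ζ} : Set ℂ)) (3 ^ b) :=
    IsPrimitiveRoot.of_map_of_injective
      (f := (IntermediateField.adjoin ℚ ({ζ} : Set ℂ)).val) hζ
      (IntermediateField.adjoin ℚ ({ζ} : Set ℂ)).val.injective
  have hcl := IsCyclotomicExtension.Rat.isIntegralClosure_adjoin_singleton_of_prime_pow hζK
  have hTint : IsIntegral ℤ (⟨T, hT⟩ : IntermediateField.adjoin ℚ ({ζ} : Set ℂ)) := by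
    have h := isIntegral_algHom_iff
      ((IntermediateField.adjoin ℚ ({ζ} : Set ℂ)).val.restrictScalars ℤ)
      (IntermediateField.adjoin ℚ ({ζ} : Set ℂ)).val.injective
      (x := (⟨T, hT⟩ : IntermediateField.adjoin ℚ ({ζ} : Set ℂ)))
    exact h.1 hint
  obtain ⟨y, hy⟩ := hcl.isIntegral_iff.1 hTint
  have hy2 : (y : IntermediateField.adjoin ℚ ({ζ} : Set ℂ)) ∈
      (Polynomial.aeval (R := ℤ)
        (⟨ζ, hmem⟩ : IntermediateField.adjoin ℚ ({ζ} : Set ℂ))).range := by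
    rw [← Algebra.adjoin_singleton_eq_range_aeval]
    exact y.2
  obtain ⟨P, hP⟩ := hy2
  refine ⟨P, ?_⟩
  have h1 : (⟨T, hT⟩ : IntermediateField.adjoin ℚ ({ζ} : Set ℂ))
      = Polynomial.aeval (⟨ζ, hmem⟩ : IntermediateField.adjoin ℚ ({ζ} : Set ℂ)) P := by
    rw [← hy]
    exact hP.symm
  have h2 := congrArg (fun x => ((IntermediateField.adjoin ℚ ({ζ} : Set ℂ)).val.restrictScalars ℤ) x)
    h1
  rw [← Polynomial.aeval_algHom_apply] at h2
  exact h2.symm

/-- a prime is not a unit -/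
theorem nonunit3 : ¬ IsUnit (3 : O) := by
  intro hu
  obtain ⟨u, hu⟩ := hu.exists_right_inv
  have h1 : (3 : ℂ) * (u : ℂ) = 1 := by
    exact congrArg (Subtype.val) hu
  have h2 : (u : ℂ) = algebraMap ℚ ℂ (1 / 3) := by
    rw [eq_ratCast]
    push_cast
    field_simp
    rw [mul_comm]
    exact h1
  have h3 : IsIntegral ℤ (algebraMap ℚ ℂ (1 / 3)) := by
    rw [← h2]
    exact u.2
  have h4 : IsIntegral ℤ (1 / 3 : ℚ) :=
    (isIntegral_algebraMap_iff (algebraMap ℚ ℂ).injective).1 h3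
  obtain ⟨n, hn⟩ := (IsIntegrallyClosed.isIntegral_iff (R := ℤ) (K := ℚ)).1 h4
  have h5 : (n : ℚ) * 3 = 1 := by
    have : (n : ℚ) = 1 / 3 := by rw [← hn]; simp
    rw [this]
    norm_num
  have h6 : n * 3 = 1 := by exact_mod_cast h5
  omega

/-- A homomorphism to a field of characteristic three. -/
theorem exists_hom : ∃ M : Ideal O, M.IsMaximal ∧ (3 : O) ∈ M := by
  obtain ⟨M, hM, hle⟩ := Ideal.exists_le_maximal (Ideal.span {(3 : O)}) (by
    rw [Ne, Ideal.span_singleton_eq_top]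
    exact nonunit3)
  exact ⟨M, hM, hle (Ideal.mem_span_singleton_self _)⟩

end Desc

open Desc

theorem desc (b : ℕ) (w : Fin 6 → ℂ) (c : Fin 6 → ℤ) (v v' : ℂ) (hw : ∀ j, w j ^ 3 ^ b = 1)
    (hv : v ^ 3 ^ b = 1) (hv' : v' ^ 3 ^ b = 1) (hne : v ≠ v') (hc : ∑ j, c j = 0)
    (h : (∑ j, (c j : ℂ) * w j) ^ 2 + (v - v') ^ 2 = -6 * (v * v')) :
    v ^ 2 + v * v' + v' ^ 2 = 0 := by
  by_contra hcon
  have hpos : 3 ^ b ≠ 0 := pow_ne_zero _ (by norm_num)
  have hv'0 : v' ≠ 0 := by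
    rintro rfl
    rw [zero_pow hpos] at hv'
    exact zero_ne_one hv'
  -- the ratio
  set θ : ℂ := v / v' with hθdef
  have hvθ : v = θ * v' := by
    rw [hθdef]
    field_simp
  have hθb : θ ^ 3 ^ b = 1 := by
    rw [hθdef, div_pow, hv, hv', div_one]
  have hθ1 : θ ≠ 1 := by
    intro h1
    apply hne
    rw [hvθ, h1, one_mul]
  have hθ3 : θ ^ 3 ≠ 1 := by
    intro h3
    have h4 : (v - v') * (v ^ 2 + v * v' + v' ^ 2) = 0 := by
      rw [hvθ]
      linear_combination v' ^ 3 * h3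
    rcases mul_eq_zero.1 h4 with h5 | h5
    · exact hne (sub_eq_zero.1 h5)
    · exact hcon h5
  have hex : ∃ k : ℕ, θ ^ 3 ^ k = 1 := ⟨b, hθb⟩
  classical
  obtain ⟨d, hd⟩ : ∃ d, Nat.find hex = d + 2 := by
    have h0 : Nat.find hex ≠ 0 := by
      intro h0
      have := Nat.find_spec hex
      rw [h0, pow_zero, pow_one] at this
      exact hθ1 this
    have h1 : Nat.find hex ≠ 1 := by
      intro h1
      have := Nat.find_spec hex
      rw [h1, pow_one] at this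
      exact hθ3 this
    exact ⟨Nat.find hex - 2, by omega⟩
  have hθd : θ ^ 3 ^ (d + 2) = 1 := by
    have := Nat.find_spec hex
    rwa [hd] at this
  have hθd' : θ ^ 3 ^ (d + 1) ≠ 1 := Nat.find_min hex (by omega)
  set ω : ℂ := θ ^ 3 ^ (d + 1) with hω
  have hω3 : ω ^ 3 = 1 := by
    rw [hω, ← pow_mul, ← pow_succ]
    exact hθd
  have hω2 : ω ^ 2 + ω + 1 = 0 := by
    have h4 : (ω - 1) * (ω ^ 2 + ω + 1) = 0 := by linear_combination hω3
    rcases mul_eq_zero.1 h4 with h5 | h5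
    · exact absurd (sub_eq_zero.1 h5) hθd'
    · exact h5
  set G : ℂ := ∑ i ∈ Finset.range (3 ^ (d + 1)), θ ^ i with hG
  have hGθ : (1 - θ) * G = 1 - ω := by
    rw [hG, hω]
    exact mul_neg_geom_sum θ _
  set X : ℂ := ∑ j, (c j : ℂ) * w j with hX
  have h1θ : 1 - θ ≠ 0 := sub_ne_zero.2 (Ne.symm hθ1)
  set T : ℂ := X / (1 - θ) with hT
  have hTX : X = T * (1 - θ) := by
    rw [hT]
    field_simp
  have hT2 : T ^ 2 = 2 * ω ^ 2 * G ^ 2 * v * v' - v' ^ 2 := by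
    have e1 : (1 - θ) ^ 2 * (T ^ 2 - (2 * ω ^ 2 * G ^ 2 * v * v' - v' ^ 2)) = 0 := by
      have e2 : X ^ 2 + (v - v') ^ 2 = -6 * (v * v') := h
      rw [hTX, hvθ] at e2
      have e3 : (1 - θ) ^ 2 * G ^ 2 = (1 - ω) ^ 2 := by rw [← mul_pow, hGθ]
      have e4 : ω ^ 2 * (1 - ω) ^ 2 = -3 := by
        linear_combination (ω ^ 2 - 3 * ω + 3) * hω2
      rw [hvθ]
      linear_combination e2 - 2 * ω ^ 2 * (θ * v') * v' * e3 - 2 * (θ * v') * v' * e4
    rcases mul_eq_zero.1 e1 with h5 | h5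
    · exact absurd h5 (pow_ne_zero 2 h1θ)
    · exact sub_eq_zero.1 h5
  -- integrality
  have hroot : ∀ z : ℂ, z ^ 3 ^ b = 1 → IsIntegral ℤ z := by
    intro z hz
    refine IsIntegral.of_pow (Nat.pos_of_ne_zero hpos) ?_
    rw [hz]
    exact isIntegral_one
  have hiθ : IsIntegral ℤ θ := hroot θ hθb
  have hiv : IsIntegral ℤ v := hroot v hv
  have hiv' : IsIntegral ℤ v' := hroot v' hv'
  have hiω : IsIntegral ℤ ω := hiθ.pow _
  have hiG : IsIntegral ℤ G := IsIntegral.sum _ fun i _ => hiθ.pow i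
  have hiT : IsIntegral ℤ T := by
    refine IsIntegral.of_pow (n := 2) (by norm_num) ?_
    rw [hT2]
    have h2 : IsIntegral ℤ (2 : ℂ) := by
      have := (isIntegral_algebraMap (R := ℤ) (A := ℂ) (x := 2))
      simpa using this
    exact ((((h2.mul (hiω.pow 2)).mul (hiG.pow 2)).mul hiv).mul hiv').sub (hiv'.pow 2)
  -- membership in the cyclotomic field
  set ζ : ℂ := Complex.exp (2 * Real.pi * Complex.I / ((3 ^ b : ℕ) : ℂ)) with hζdef
  have hζ : IsPrimitiveRoot ζ (3 ^ b) := Complex.isPrimitiveRoot_exp _ hpos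
  have hne0 : NeZero (3 ^ b) := ⟨hpos⟩
  have hmemroot : ∀ z : ℂ, z ^ 3 ^ b = 1 → z ∈ IntermediateField.adjoin ℚ ({ζ} : Set ℂ) := by
    intro z hz
    obtain ⟨i, _, hi⟩ := hζ.eq_pow_of_pow_eq_one hz
    rw [← hi]
    exact pow_mem (IntermediateField.mem_adjoin_simple_self ℚ ζ) i
  have hTmem : T ∈ IntermediateField.adjoin ℚ ({ζ} : Set ℂ) := by
    rw [hT]
    refine div_mem ?_ (sub_mem (one_mem _) (hmemroot θ hθb))
    rw [hX]
    refine sum_mem fun j _ => mul_mem (intCast_mem _ _) (hmemroot _ (hw j))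
  obtain ⟨P, hP⟩ := mem_adjoin b ζ hζ T hTmem hiT
  -- the residue field
  obtain ⟨M, hM, h3M⟩ := exists_hom
  let f := Ideal.Quotient.mk M
  have hfield : IsDomain (O ⧸ M) := by
    have := hM.isPrime
    exact Ideal.Quotient.isDomain M
  have hf3 : (3 : O ⧸ M) = 0 := by
    have h4 : f (3 : O) = 0 := Ideal.Quotient.eq_zero_iff_mem.2 h3M
    rw [← h4, map_ofNat]
  have hp3 : Fact (Nat.Prime 3) := ⟨by norm_num⟩
  have hchar : CharP (O ⧸ M) 3 := (CharP.charP_iff_prime_eq_zero hp3.out).2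
    (by exact_mod_cast hf3)
  have hfroot : ∀ z : O, z ^ 3 ^ b = 1 → f z = 1 := by
    intro z hz
    have h4 : (f z - 1) ^ 3 ^ b = 0 := by
      rw [sub_pow_char_pow, ← map_pow, hz, map_one, one_pow, sub_self]
    exact sub_eq_zero.1 (pow_eq_zero_iff hpos |>.1 h4)
  let θO : O := ⟨θ, hiθ⟩
  let vO : O := ⟨v, hiv⟩
  let v'O : O := ⟨v', hiv'⟩
  let ζO : O := ⟨ζ, hroot ζ hζ.pow_eq_one⟩
  let TO : O := ⟨T, hiT⟩
  have hθO : f θO = 1 := hfroot _ (Subtype.ext hθb)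
  have hv'O : f v'O = 1 := hfroot _ (Subtype.ext hv')
  have hζO : f ζO = 1 := hfroot _ (Subtype.ext hζ.pow_eq_one)
  let GO : O := ∑ i ∈ Finset.range (3 ^ (d + 1)), θO ^ i
  have hGO : (GO : ℂ) = G := by
    change ((∑ i ∈ Finset.range (3 ^ (d + 1)), θO ^ i : O) : ℂ) = G
    push_cast
    rfl
  have hfG : f GO = 0 := by
    change f (∑ i ∈ Finset.range (3 ^ (d + 1)), θO ^ i) = 0
    rw [map_sum]
    simp only [map_pow, hθO, one_pow]
    rw [Finset.sum_const, Finset.card_range, nsmul_eq_mul, mul_one, Nat.cast_pow]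
    have h4 : ((3 : ℕ) : O ⧸ M) = 0 := by exact_mod_cast hf3
    rw [h4, zero_pow (by omega)]
  have hTO : TO ^ 2 = 2 * (θO ^ 3 ^ (d + 1)) ^ 2 * GO ^ 2 * vO * v'O - v'O ^ 2 := by
    apply Subtype.ext
    push_cast
    rw [hGO]
    exact hT2
  have hfT : f TO ^ 2 = -1 := by
    rw [← map_pow, hTO, map_sub, map_mul, map_mul, map_mul, map_pow f GO, hfG, map_pow f v'O, hv'O]
    ring
  have hPO : TO = Polynomial.aeval ζO P := by
    apply Subtype.ext
    have h4 : ((Polynomial.aeval ζO P : O) : ℂ) = Polynomial.aeval (ζO : ℂ) P := by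
      have := Polynomial.aeval_algHom_apply (integralClosure ℤ ℂ).val ζO P
      exact this.symm
    rw [h4]
    exact hP.symm
  have hfP : f TO = ((P.eval 1 : ℤ) : O ⧸ M) := by
    rw [hPO, Polynomial.aeval_def, Polynomial.hom_eval₂, hζO]
    have h5 : (f.comp (algebraMap ℤ O)) = Int.castRingHom (O ⧸ M) := RingHom.ext_int _ _
    rw [h5]
    have h6 := Polynomial.eval₂_at_apply (Int.castRingHom (O ⧸ M)) 1 (p := P)
    rw [map_one] at h6
    exact h6
  have h6 : (((P.eval 1) ^ 2 + 1 : ℤ) : O ⧸ M) = 0 := by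
    push_cast
    rw [← hfP, hfT]
    ring
  rw [CharP.intCast_eq_zero_iff (O ⧸ M) 3] at h6
  obtain ⟨k, hk⟩ := h6
  have h7 : (P.eval 1) % 3 = 0 ∨ (P.eval 1) % 3 = 1 ∨ (P.eval 1) % 3 = 2 := by omega
  have h8 : ((P.eval 1) ^ 2 + 1) % 3 = 0 := by
    rw [hk]
    push_cast
    exact Int.mul_emod_right 3 k
  rcases h7 with h9 | h9 | h9 <;> simp [pow_two, Int.add_emod, Int.mul_emod, h9] at h8

end Vale.Agent.P355
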