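import Vale.Agent.P355.Triple

/-! P355: families of mutually unbiased bases of `ℂ^6` with phases in `ℚ(ζ_N)`. -/

open Polynomial

namespace Vale.Agent.P355

theorem star_mem {p s N : ℕ} (h : N ∣ p ^ s + 1) {ζ : ℂ} (hζ : ζ ^ N = 1) {x : ℂ}
    (hx : x ∈ Algebra.adjoin ℚ {ζ}) : star x ∈ Algebra.adjoin ℚ {ζ} := by
  rw [Algebra.adjoin_singleton_eq_range_aeval] at hx
  obtain ⟨P, rfl⟩ := hx
  have h1 : star (aeval ζ P) = aeval (star ζ) P := by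
    have h := Polynomial.hom_eval₂ P (algebraMap ℚ ℂ) (starRingEnd ℂ) ζ
    have h5 : (starRingEnd ℂ).comp (algebraMap ℚ ℂ) = algebraMap ℚ ℂ := Subsingleton.elim _ _
    rw [h5] at h
    rw [aeval_def, aeval_def]
    exact h
  have h2 : star ζ ∈ Algebra.adjoin ℚ {ζ} := by
    rw [← Field.star_eq h hζ]
    exact Subalgebra.pow_mem _ (Algebra.self_mem_adjoin_singleton ℚ ζ) _
  change star (aeval ζ P) ∈ _
  rw [h1]
  exact (Algebra.adjoin_le (Set.singleton_subset_iff.2 h2)) (aeval_mem_adjoin_singleton ℚ (star ζ))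

theorem family {N s : ℕ} (hs : 0 < s) (hN : N ∣ 2 ^ s + 1 ∨ N ∣ 3 ^ s + 1) {ζ : ℂ}
    (hζ : ζ ^ N = 1) (m : ℕ)
    (B : Fin (m + 1) → OrthonormalBasis (Fin 6) ℂ (EuclideanSpace ℂ (Fin 6)))
    (hB : ∀ a b, a ≠ b → Unbiased (B a) (B b))
    (hph : ∀ a, a ≠ 0 → ∀ i i' j,
      inner ℂ (B 0 i) (B a j) / inner ℂ (B 0 i') (B a j) ∈ Algebra.adjoin ℚ {ζ}) :
    m + 1 ≤ 2 := by
  by_contra hcon
  have hm : 2 ≤ m := by omega
  obtain ⟨a1, ha1⟩ : ∃ a : Fin (m + 1), (a : ℕ) = 1 := ⟨⟨1, by omega⟩, rfl⟩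
  obtain ⟨a2, ha2⟩ : ∃ a : Fin (m + 1), (a : ℕ) = 2 := ⟨⟨2, by omega⟩, rfl⟩
  have h10 : a1 ≠ 0 := by
    intro h; rw [h] at ha1; simp at ha1
  have h20 : a2 ≠ 0 := by
    intro h; rw [h] at ha2; simp at ha2
  have h12 : a1 ≠ a2 := by
    intro h; rw [h] at ha1; omega
  obtain ⟨i, hi⟩ := triple hs hN hζ (hB a1 0 h10) (hB 0 a2 h20.symm) (hB a1 a2 h12) 0 0 0
  apply hi
  have hst : star (inner ℂ (B 0 i) (B a1 0) / inner ℂ (B 0 0) (B a1 0)) ∈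
      Algebra.adjoin ℚ {ζ} := by
    rcases hN with hN | hN
    · exact star_mem hN hζ (hph a1 h10 i 0 0)
    · exact star_mem hN hζ (hph a1 h10 i 0 0)
  have hmul := Subalgebra.mul_mem _ hst (hph a2 h20 i 0 0)
  have e1 : star (inner ℂ (B 0 i) (B a1 0) / inner ℂ (B 0 0) (B a1 0)) =
      inner ℂ (B a1 0) (B 0 i) / inner ℂ (B a1 0) (B 0 0) := by
    rw [star_div₀]
    congr 1 <;> exact inner_conj_symm _ _
  rw [e1, div_mul_div_comm] at hmul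
  exact hmul

end Vale.Agent.P355
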