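import Vale.Agent.P355.Defs
import Vale.Agent.P355.Field

/-! P355: mutually unbiased bases with phases in `ℚ(ζ_N)`. -/

open Polynomial

namespace Vale.Agent.P355

theorem dot_star (u v : Fin 6 → ℂ) : star (dot u v) = dot v u := by
  unfold dot
  rw [star_sum]
  refine Finset.sum_congr rfl fun i _ => ?_
  rw [star_mul', star_star, mul_comm]

theorem parseval {e : Fin 6 → Fin 6 → ℂ} (he : IsONB e) (u v : Fin 6 → ℂ) :
    ∑ i, dot u (e i) * dot (e i) v = dot u v := by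
  have h1 : (Matrix.of fun j i => star (e j i)) * (Matrix.of fun i k => e k i) =
      (1 : Matrix (Fin 6) (Fin 6) ℂ) := by
    ext j k
    rw [Matrix.mul_apply, Matrix.one_apply]
    exact he j k
  have h2 : (Matrix.of fun i k => e k i) * (Matrix.of fun j i => star (e j i)) =
      (1 : Matrix (Fin 6) (Fin 6) ℂ) := mul_eq_one_comm.1 h1
  have h3 : ∀ a b, ∑ i, e i a * star (e i b) = if a = b then 1 else 0 := by
    intro a b
    have := congrFun (congrFun h2 a) b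
    rw [Matrix.mul_apply, Matrix.one_apply] at this
    exact this
  calc ∑ i, dot u (e i) * dot (e i) v
      = ∑ i, ∑ a, ∑ b, star (u a) * v b * (e i a * star (e i b)) := by
        refine Finset.sum_congr rfl fun i _ => ?_
        unfold dot
        rw [Finset.sum_mul_sum]
        refine Finset.sum_congr rfl fun a _ => Finset.sum_congr rfl fun b _ => ?_
        ring
    _ = ∑ a, ∑ b, star (u a) * v b * ∑ i, e i a * star (e i b) := by
        rw [Finset.sum_comm]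
        refine Finset.sum_congr rfl fun a _ => ?_
        rw [Finset.sum_comm]
        refine Finset.sum_congr rfl fun b _ => ?_
        rw [Finset.mul_sum]
    _ = dot u v := by
        unfold dot
        refine Finset.sum_congr rfl fun a _ => ?_
        simp_rw [h3]
        simp

theorem mul_star_eq (z : ℂ) : z * star z = ((‖z‖ ^ 2 : ℝ) : ℂ) := by
  have := Complex.mul_conj z
  rw [Complex.normSq_eq_norm_sq] at this
  exact this

theorem ne_six {N s : ℕ} (hs : 0 < s) (hN : N ∣ 2 ^ s + 1 ∨ N ∣ 3 ^ s + 1) {ζ : ℂ}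
    (hζ : ζ ^ N = 1) {x : ℂ} (hx : x ∈ Q ζ) : ‖x‖ ^ 2 ≠ 6 := by
  intro h
  have hval : x * star x = ((6 : ℕ) : ℂ) := by
    rw [mul_star_eq, h]
    norm_num
  rcases hN with hN | hN
  · exact Field.no_norm Nat.prime_two hs hN hζ (by norm_num) (by norm_num) hx hval
  · exact Field.no_norm Nat.prime_three hs hN hζ (by norm_num) (by norm_num) hx hval

theorem star_mem' {N s : ℕ} (hN : N ∣ 2 ^ s + 1 ∨ N ∣ 3 ^ s + 1) {ζ : ℂ} (hζ : ζ ^ N = 1) {x : ℂ}
    (hx : x ∈ Q ζ) : star x ∈ Q ζ := by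
  unfold Q at hx ⊢
  rw [Algebra.adjoin_singleton_eq_range_aeval] at hx
  obtain ⟨P, rfl⟩ := hx
  have h1 : star (aeval ζ P) = aeval (star ζ) P := by
    have h := Polynomial.hom_eval₂ P (algebraMap ℚ ℂ) (starRingEnd ℂ) ζ
    have h5 : (starRingEnd ℂ).comp (algebraMap ℚ ℂ) = algebraMap ℚ ℂ := Subsingleton.elim _ _
    rw [h5] at h
    rw [aeval_def, aeval_def]
    exact h
  have h2 : star ζ ∈ Algebra.adjoin ℚ {ζ} := by
    rcases hN with hN | hN
    · rw [← Field.star_eq hN hζ]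
      exact Subalgebra.pow_mem _ (Algebra.self_mem_adjoin_singleton ℚ ζ) _
    · rw [← Field.star_eq hN hζ]
      exact Subalgebra.pow_mem _ (Algebra.self_mem_adjoin_singleton ℚ ζ) _
  change star (aeval ζ P) ∈ _
  rw [h1]
  exact (Algebra.adjoin_le (Set.singleton_subset_iff.2 h2)) (aeval_mem_adjoin_singleton ℚ (star ζ))

theorem triple' {N s : ℕ} (hs : 0 < s) (hN : N ∣ 2 ^ s + 1 ∨ N ∣ 3 ^ s + 1) {ζ : ℂ}
    (hζ : ζ ^ N = 1) {e b c : Fin 6 → Fin 6 → ℂ}
    (h1 : MU e b) (h2 : MU e c) (h3 : MU b c) (i₀ j k : Fin 6) :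
    ∃ i, tri e b c i j k / tri e b c i₀ j k ∉ Q ζ := by
  by_contra hcon
  push Not at hcon
  have hmem := Subalgebra.sum_mem (Q ζ) (fun i (_ : i ∈ Finset.univ) => hcon i)
  rw [← Finset.sum_div] at hmem
  have hsum : ∑ i, tri e b c i j k = dot (b j) (c k) := parseval h1.1 (b j) (c k)
  rw [hsum] at hmem
  refine ne_six hs hN hζ hmem ?_
  have h4 : ‖dot (b j) (e i₀)‖ ^ 2 = 1 / 6 := by
    rw [← dot_star, norm_star]
    exact h1.2.2 i₀ j
  have h5 := h2.2.2 i₀ k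
  have h6 := h3.2.2 j k
  rw [norm_div, div_pow]
  unfold tri
  rw [norm_mul, mul_pow, h4, h5, h6]
  norm_num

theorem family' {N s : ℕ} (hs : 0 < s) (hN : N ∣ 2 ^ s + 1 ∨ N ∣ 3 ^ s + 1) {ζ : ℂ}
    (hζ : ζ ^ N = 1) (m : ℕ) (B : Fin (m + 1) → Fin 6 → Fin 6 → ℂ)
    (hB : ∀ a b, a ≠ b → MU (B a) (B b)) (hph : ∀ a, a ≠ 0 → Phases ζ (B 0) (B a)) :
    m + 1 ≤ 2 := by
  by_contra hcon
  have hm : 2 ≤ m := by omega
  obtain ⟨a1, ha1⟩ : ∃ a : Fin (m + 1), (a : ℕ) = 1 := ⟨⟨1, by omega⟩, rfl⟩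
  obtain ⟨a2, ha2⟩ : ∃ a : Fin (m + 1), (a : ℕ) = 2 := ⟨⟨2, by omega⟩, rfl⟩
  have h10 : a1 ≠ 0 := by
    intro h; rw [h] at ha1; simp at ha1
  have h20 : a2 ≠ 0 := by
    intro h; rw [h] at ha2; simp at ha2
  have h12 : a1 ≠ a2 := by
    intro h; rw [h] at ha1; omega
  obtain ⟨i, hi⟩ := triple' hs hN hζ (hB 0 a1 h10.symm) (hB 0 a2 h20.symm) (hB a1 a2 h12) 0 0 0
  apply hi
  have hst := star_mem' hN hζ (hph a1 h10 i 0 0)
  have hmul := Subalgebra.mul_mem _ hst (hph a2 h20 i 0 0)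
  rw [star_div₀, dot_star, dot_star, div_mul_div_comm] at hmul
  exact hmul

end Vale.Agent.P355
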