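import Vale.Agent.P355.Main4
import Vale.Agent.P355.Plain
import Vale.Agent.P355.Defs4

/-! P355 (four bases): from `core4` to bases. -/

namespace Vale.Agent.P355

open Complex

/-- ratio of coordinates -/
noncomputable def rat (e : Fin 6 → Fin 6 → ℂ) (v : Fin 6 → ℂ) (j : Fin 6) : ℂ :=
  dot (e j) v / dot (e 0) v

theorem rat_sum {e : Fin 6 → Fin 6 → ℂ} (he : IsONB e) (y z : Fin 6 → ℂ) :
    ∑ j, (starRingEnd ℂ) (rat e y j) * rat e z j =
      dot y z / ((starRingEnd ℂ) (dot (e 0) y) * dot (e 0) z) := by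
  rw [← parseval he y z, Finset.sum_div]
  refine Finset.sum_congr rfl fun j _ => ?_
  unfold rat
  rw [map_div₀, div_mul_div_comm]
  congr 2
  exact dot_star (e j) y

theorem normSq_dot {u v : Fin 6 → ℂ} (h : ‖dot u v‖ ^ 2 = 1 / 6) : normSq (dot u v) = 1 / 6 := by
  rw [Complex.normSq_eq_norm_sq]
  exact h

theorem normSq_rat_sum {e : Fin 6 → Fin 6 → ℂ} (he : IsONB e) {y z : Fin 6 → ℂ}
    (hy : ‖dot (e 0) y‖ ^ 2 = 1 / 6) (hz : ‖dot (e 0) z‖ ^ 2 = 1 / 6)
    (hyz : ‖dot y z‖ ^ 2 = 1 / 6) :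
    normSq (∑ j, (starRingEnd ℂ) (rat e y j) * rat e z j) = 6 := by
  rw [rat_sum he, map_div₀, map_mul, normSq_conj, normSq_dot hy, normSq_dot hz, normSq_dot hyz]
  norm_num

theorem rat_conj {N : ℕ} (hN : N ≠ 0) {e : Fin 6 → Fin 6 → ℂ} {v : Fin 6 → ℂ}
    (h : VecPhases N e v) (j : Fin 6) : (starRingEnd ℂ) (rat e v j) * rat e v j = 1 := by
  have h1 : ‖rat e v j‖ = 1 := Complex.norm_eq_one_of_pow_eq_one (h j 0) hN
  rw [mul_comm, Complex.mul_conj, Complex.normSq_eq_norm_sq, h1]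
  simp

/-- a basis and two vectors -/
theorem no_config (b : ℕ) (e c : Fin 6 → Fin 6 → ℂ) (v x : Fin 6 → ℂ) (hec : MU e c)
    (hev : ∀ i, ‖dot (e i) v‖ ^ 2 = 1 / 6) (hex : ∀ i, ‖dot (e i) x‖ ^ 2 = 1 / 6)
    (hcv : ∀ u, ‖dot (c u) v‖ ^ 2 = 1 / 6) (hcx : ∀ u, ‖dot (c u) x‖ ^ 2 = 1 / 6)
    (hvx : ‖dot v x‖ ^ 2 = 1 / 6) (hpc : ∀ u, VecPhases (4 * 3 ^ b) e (c u))
    (hpv : VecPhases (4 * 3 ^ b) e v) (hpx : VecPhases (4 * 3 ^ b) e x) : False := by
  have hN : 4 * 3 ^ b ≠ 0 := by positivity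
  have he := hec.1
  have hc := hec.2.1
  have hsw : ∀ {y z : Fin 6 → ℂ}, ‖dot y z‖ ^ 2 = 1 / 6 → ‖dot z y‖ ^ 2 = 1 / 6 := by
    intro y z h
    rw [← dot_star, norm_star]
    exact h
  have hx1 := rat_conj hN hpx
  refine core4 b (fun u j => (starRingEnd ℂ) (rat e x j) * rat e (c u) j)
    (fun j => (starRingEnd ℂ) (rat e x j) * rat e v j) ?_ ?_ ?_ ?_ ?_ ?_ ?_
  · intro u j
    show ((starRingEnd ℂ) (rat e x j) * rat e (c u) j) ^ (4 * 3 ^ b) = 1
    rw [mul_pow, ← map_pow]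
    have h1 : rat e x j ^ (4 * 3 ^ b) = 1 := hpx j 0
    have h2 : rat e (c u) j ^ (4 * 3 ^ b) = 1 := hpc u j 0
    rw [h1, h2, map_one, mul_one]
  · intro j
    show ((starRingEnd ℂ) (rat e x j) * rat e v j) ^ (4 * 3 ^ b) = 1
    rw [mul_pow, ← map_pow]
    have h1 : rat e x j ^ (4 * 3 ^ b) = 1 := hpx j 0
    have h2 : rat e v j ^ (4 * 3 ^ b) = 1 := hpv j 0
    rw [h1, h2, map_one, mul_one]
  · intro u
    exact normSq_rat_sum he (hex 0) (hec.2.2 0 u) (hsw (hcx u))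
  · intro u
    have e1 : ∀ j, (starRingEnd ℂ) ((starRingEnd ℂ) (rat e x j) * rat e v j) *
        ((starRingEnd ℂ) (rat e x j) * rat e (c u) j) =
        (starRingEnd ℂ) (rat e v j) * rat e (c u) j := by
      intro j
      rw [map_mul, Complex.conj_conj]
      linear_combination ((starRingEnd ℂ) (rat e v j) * rat e (c u) j) * hx1 j
    show normSq (∑ j, (starRingEnd ℂ) ((starRingEnd ℂ) (rat e x j) * rat e v j) *
        ((starRingEnd ℂ) (rat e x j) * rat e (c u) j)) = 6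
    rw [Finset.sum_congr rfl fun j _ => e1 j]
    exact normSq_rat_sum he (hev 0) (hec.2.2 0 u) (hsw (hcv u))
  · exact normSq_rat_sum he (hex 0) (hev 0) (hsw hvx)
  · intro u u' huu
    have e1 : ∀ j, (starRingEnd ℂ) ((starRingEnd ℂ) (rat e x j) * rat e (c u) j) *
        ((starRingEnd ℂ) (rat e x j) * rat e (c u') j) =
        (starRingEnd ℂ) (rat e (c u) j) * rat e (c u') j := by
      intro j
      rw [map_mul, Complex.conj_conj]
      linear_combination ((starRingEnd ℂ) (rat e (c u) j) * rat e (c u') j) * hx1 j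
    show ∑ j, (starRingEnd ℂ) ((starRingEnd ℂ) (rat e x j) * rat e (c u) j) *
        ((starRingEnd ℂ) (rat e x j) * rat e (c u') j) = 0
    rw [Finset.sum_congr rfl fun j _ => e1 j, rat_sum he, hc u u', if_neg huu, zero_div]
  · intro p q hpq
    have h6 : ∀ u, (starRingEnd ℂ) (dot (e 0) (c u)) * dot (e 0) (c u) = 1 / 6 := by
      intro u
      rw [mul_comm, Complex.mul_conj, normSq_dot (hec.2.2 0 u)]
      push_cast
      rfl
    have e1 : ∀ u, ((starRingEnd ℂ) (rat e x p) * rat e (c u) p) *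
        (starRingEnd ℂ) ((starRingEnd ℂ) (rat e x q) * rat e (c u) q) =
        ((starRingEnd ℂ) (rat e x p) * rat e x q * 6) *
          (dot (e p) (c u) * dot (c u) (e q)) := by
      intro u
      have h7 : rat e (c u) p * (starRingEnd ℂ) (rat e (c u) q) =
          6 * (dot (e p) (c u) * dot (c u) (e q)) := by
        unfold rat
        rw [map_div₀, div_mul_div_comm, mul_comm (dot (e 0) (c u)), h6 u]
        have h8 : (starRingEnd ℂ) (dot (e q) (c u)) = dot (c u) (e q) := dot_star (e q) (c u)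
        rw [h8]
        ring
      rw [map_mul, Complex.conj_conj]
      linear_combination ((starRingEnd ℂ) (rat e x p) * rat e x q) * h7
    show ∑ u, ((starRingEnd ℂ) (rat e x p) * rat e (c u) p) *
        (starRingEnd ℂ) ((starRingEnd ℂ) (rat e x q) * rat e (c u) q) = 0
    rw [Finset.sum_congr rfl fun u _ => e1 u, ← Finset.mul_sum, parseval hc, he p q,
      if_neg hpq, mul_zero]

theorem at_most_three (b m : ℕ) (h : HasBases (4 * 3 ^ b) m) : m ≤ 3 := by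
  obtain ⟨B, r, hB, hP⟩ := h
  by_contra hm
  push Not at hm
  -- three other indices
  have h1 : 2 < (Finset.univ.erase r).card := by
    rw [Finset.card_erase_of_mem (Finset.mem_univ _), Finset.card_univ, Fintype.card_fin]
    omega
  obtain ⟨s1, hs1, s2, hs2, s3, hs3, h12, h13, h23⟩ := Finset.two_lt_card.1 h1
  have hr1 := (Finset.mem_erase.1 hs1).1
  have hr2 := (Finset.mem_erase.1 hs2).1
  have hr3 := (Finset.mem_erase.1 hs3).1
  exact no_config b (B r) (B s1) (B s2 0) (B s3 0) (hB r s1 hr1.symm)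
    (fun i => (hB r s2 hr2.symm).2.2 i 0) (fun i => (hB r s3 hr3.symm).2.2 i 0)
    (fun u => (hB s1 s2 h12).2.2 u 0) (fun u => (hB s1 s3 h13).2.2 u 0) ((hB s2 s3 h23).2.2 0 0)
    (fun u => hP s1 hr1 u) (hP s2 hr2 0) (hP s3 hr3 0)

end Vale.Agent.P355

namespace Vale.Agent.P355

theorem pow_mono {z : ℂ} {b B : ℕ} (h : z ^ (4 * 3 ^ b) = 1) (hb : b ≤ B) :
    z ^ (4 * 3 ^ B) = 1 := by
  obtain ⟨d, rfl⟩ := Nat.exists_eq_add_of_le hb
  rw [pow_add, ← mul_assoc, pow_mul, h, one_pow]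

theorem VecPhases.mono {b B : ℕ} {e : Fin 6 → Fin 6 → ℂ} {v : Fin 6 → ℂ}
    (h : VecPhases (4 * 3 ^ b) e v) (hb : b ≤ B) : VecPhases (4 * 3 ^ B) e v :=
  fun i i' => pow_mono (h i i') hb

theorem VecPhases3.exists {e : Fin 6 → Fin 6 → ℂ} {v : Fin 6 → ℂ} (h : VecPhases3 e v) :
    ∃ b, VecPhases (4 * 3 ^ b) e v := by
  choose f hf using h
  refine ⟨Finset.univ.sup fun i => Finset.univ.sup fun i' => f i i', fun i i' => ?_⟩
  refine pow_mono (hf i i') ?_
  exact (Finset.le_sup (f := fun i' => f i i') (Finset.mem_univ i')).trans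
    (Finset.le_sup (f := fun i => Finset.univ.sup fun i' => f i i') (Finset.mem_univ i))

theorem VecPhases.smooth {b : ℕ} {e : Fin 6 → Fin 6 → ℂ} {v : Fin 6 → ℂ}
    (h : VecPhases (4 * 3 ^ b) e v) : VecPhases3 e v := fun i i' => ⟨b, h i i'⟩

/-- a basis and two vectors, roots of unity of any order dividing some `4 * 3 ^ b` -/
theorem no_config3 (e c : Fin 6 → Fin 6 → ℂ) (v x : Fin 6 → ℂ) (hec : MU e c)
    (hev : ∀ i, ‖dot (e i) v‖ ^ 2 = 1 / 6) (hex : ∀ i, ‖dot (e i) x‖ ^ 2 = 1 / 6)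
    (hcv : ∀ u, ‖dot (c u) v‖ ^ 2 = 1 / 6) (hcx : ∀ u, ‖dot (c u) x‖ ^ 2 = 1 / 6)
    (hvx : ‖dot v x‖ ^ 2 = 1 / 6) (hpc : ∀ u, VecPhases3 e (c u))
    (hpv : VecPhases3 e v) (hpx : VecPhases3 e x) : False := by
  choose f hf using fun u => (hpc u).exists
  obtain ⟨b1, h1⟩ := hpv.exists
  obtain ⟨b2, h2⟩ := hpx.exists
  let B := max (Finset.univ.sup f) (max b1 b2)
  refine no_config B e c v x hec hev hex hcv hcx hvx (fun u => (hf u).mono ?_) (h1.mono ?_)
    (h2.mono ?_)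
  · exact (Finset.le_sup (f := f) (Finset.mem_univ u)).trans (le_max_left _ _)
  · exact (le_max_left b1 b2).trans (le_max_right _ _)
  · exact (le_max_right b1 b2).trans (le_max_right _ _)

theorem at_most_three3 (m : ℕ) (h : HasBases3 m) : m ≤ 3 := by
  obtain ⟨B, r, hB, hP⟩ := h
  by_contra hm
  push Not at hm
  -- three other indices
  have h1 : 2 < (Finset.univ.erase r).card := by
    rw [Finset.card_erase_of_mem (Finset.mem_univ _), Finset.card_univ, Fintype.card_fin]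
    omega
  obtain ⟨s1, hs1, s2, hs2, s3, hs3, h12, h13, h23⟩ := Finset.two_lt_card.1 h1
  have hr1 := (Finset.mem_erase.1 hs1).1
  have hr2 := (Finset.mem_erase.1 hs2).1
  have hr3 := (Finset.mem_erase.1 hs3).1
  exact no_config3 (B r) (B s1) (B s2 0) (B s3 0) (hB r s1 hr1.symm)
    (fun i => (hB r s2 hr2.symm).2.2 i 0) (fun i => (hB r s3 hr3.symm).2.2 i 0)
    (fun u => (hB s1 s2 h12).2.2 u 0) (fun u => (hB s1 s3 h13).2.2 u 0) ((hB s2 s3 h23).2.2 0 0)
    (fun u => hP s1 hr1 u) (hP s2 hr2 0) (hP s3 hr3 0)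

end Vale.Agent.P355
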