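import Mathlib

/-! P355 (four bases), row L1: words of length six over `{1, -1, i, -i}`. -/

namespace Vale.Agent.P355

namespace L1

open Finset

theorem bounds {a b : ℤ} (h : a ^ 2 + b ^ 2 = 1) : -1 ≤ a ∧ a ≤ 1 := by
  constructor <;> nlinarith [sq_nonneg b]

theorem vals {a b : ℤ} (h : a ^ 2 + b ^ 2 = 1) :
    (a = 0 ∧ (b = 1 ∨ b = -1)) ∨ (b = 0 ∧ (a = 1 ∨ a = -1)) := by
  obtain ⟨h1, h2⟩ := bounds h
  obtain ⟨h3, h4⟩ := bounds (a := b) (b := a) (by rw [← h]; ring)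
  interval_cases a <;> interval_cases b <;> simp_all

theorem nonneg_sub (a : ℤ) : 0 ≤ a ^ 2 - a := by
  rcases le_or_gt a 0 with h | h <;> nlinarith

theorem even_sub (a : ℤ) : 2 ∣ a ^ 2 - a := by
  have h : a ^ 2 - a = (a - 1) * (a - 1 + 1) := by ring
  rw [h]
  exact (Int.even_mul_succ_self (a - 1)).two_dvd

theorem sq_pos_of_exists {α : Fin 6 → ℤ} (h : ∃ j, α j ≠ 0) : 1 ≤ ∑ j, α j ^ 2 := by
  obtain ⟨j, hj⟩ := h
  have h1 : α j ^ 2 ≤ ∑ j, α j ^ 2 :=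
    Finset.single_le_sum (f := fun j => α j ^ 2) (fun i _ => sq_nonneg _) (Finset.mem_univ j)
  have h2 : 0 < α j ^ 2 := by positivity
  omega

theorem facts (α : Fin 6 → ℤ) :
    ∑ j, α j ≤ ∑ j, α j ^ 2 ∧ -∑ j, α j ≤ ∑ j, α j ^ 2 ∧
      2 ∣ ∑ j, α j ^ 2 - ∑ j, α j := by
  refine ⟨?_, ?_, ?_⟩
  · exact Finset.sum_le_sum fun j _ => by have := nonneg_sub (α j); omega
  · rw [← Finset.sum_neg_distrib]
    exact Finset.sum_le_sum fun j _ => by have := nonneg_sub (-α j); rw [neg_sq] at this; omega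
  · rw [← Finset.sum_sub_distrib]
    exact Finset.dvd_sum fun j _ => even_sub (α j)

theorem const_sign (α : Fin 6 → ℤ) (h : ∑ j, α j ^ 2 = 3) (h3 : ∑ j, α j = 3 ∨ ∑ j, α j = -3) :
    ∃ e : ℤ, (e = 1 ∨ e = -1) ∧ ∀ j, α j = e * α j ^ 2 := by
  rcases h3 with h3 | h3
  · refine ⟨1, Or.inl rfl, fun j => ?_⟩
    have h4 : ∑ j, (α j ^ 2 - α j) = 0 := by rw [Finset.sum_sub_distrib]; omega
    have h5 := (Finset.sum_eq_zero_iff_of_nonneg fun j _ => nonneg_sub (α j)).1 h4 j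
      (Finset.mem_univ j)
    linarith
  · refine ⟨-1, Or.inr rfl, fun j => ?_⟩
    have h4 : ∑ j, ((-α j) ^ 2 - (-α j)) = 0 := by
      have h6 : ∀ j, (-α j) ^ 2 - (-α j) = α j ^ 2 + α j := fun j => by ring
      simp only [h6]
      rw [Finset.sum_add_distrib]; omega
    have h5 := (Finset.sum_eq_zero_iff_of_nonneg fun j _ => nonneg_sub (-α j)).1 h4 j
      (Finset.mem_univ j)
    rw [neg_sq] at h5
    linarith

/-- one word -/
theorem word (α β : Fin 6 → ℤ) (h1 : ∀ j, α j ^ 2 + β j ^ 2 = 1) (hα : 3 ∣ ∑ j, α j)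
    (hβ : 3 ∣ ∑ j, β j) (n1 : ∃ j, α j ≠ 0) (n2 : ∃ j, β j ≠ 0) :
    ((∑ j, β j ^ 2 = 2 ∨ ∑ j, β j ^ 2 = 4) ∧ ∑ j, α j = 0 ∧ ∑ j, β j = 0) ∨
    (∑ j, β j ^ 2 = 3 ∧ (∃ e : ℤ, (e = 1 ∨ e = -1) ∧ ∀ j, α j = e * α j ^ 2) ∧
      ∃ f : ℤ, (f = 1 ∨ f = -1) ∧ ∀ j, β j = f * β j ^ 2) := by
  have hs : ∑ j, α j ^ 2 + ∑ j, β j ^ 2 = 6 := by
    rw [← Finset.sum_add_distrib, Finset.sum_congr rfl fun j _ => h1 j]
    simp
  obtain ⟨a1, a2, a3⟩ := facts α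
  obtain ⟨b1, b2, b3⟩ := facts β
  have ea := sq_pos_of_exists n1
  have eb := sq_pos_of_exists n2
  by_cases h : ∑ j, β j ^ 2 = 3
  · right
    exact ⟨h, const_sign α (by omega) (by omega), const_sign β h (by omega)⟩
  · left
    have h4 : ∑ j, β j ^ 2 = 1 ∨ ∑ j, β j ^ 2 = 2 ∨ ∑ j, β j ^ 2 = 4 ∨ ∑ j, β j ^ 2 = 5 := by
      omega
    rcases h4 with h4 | h4 | h4 | h4
    · exfalso; omega
    · refine ⟨Or.inl h4, ?_, ?_⟩ <;> omega
    · refine ⟨Or.inr h4, ?_, ?_⟩ <;> omega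
    · exfalso; omega

/-- two words of type `(3, 3)` -/
theorem no33 (α β γ δ : Fin 6 → ℤ) (h1 : ∀ j, α j ^ 2 + β j ^ 2 = 1)
    (h2 : ∀ j, γ j ^ 2 + δ j ^ 2 = 1) (hA : 3 ∣ ∑ j, (γ j * α j + δ j * β j))
    (hB : 3 ∣ ∑ j, (γ j * β j - δ j * α j))
    (n5 : ∃ j, γ j * α j + δ j * β j ≠ 0) (n6 : ∃ j, γ j * β j - δ j * α j ≠ 0)
    (hβ : ∑ j, β j ^ 2 = 3) (hδ : ∑ j, δ j ^ 2 = 3)
    (he : ∃ e : ℤ, (e = 1 ∨ e = -1) ∧ ∀ j, α j = e * α j ^ 2)
    (hf : ∃ f : ℤ, (f = 1 ∨ f = -1) ∧ ∀ j, β j = f * β j ^ 2)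
    (hg : ∃ e : ℤ, (e = 1 ∨ e = -1) ∧ ∀ j, γ j = e * γ j ^ 2)
    (hh : ∃ f : ℤ, (f = 1 ∨ f = -1) ∧ ∀ j, δ j = f * δ j ^ 2) : False := by
  obtain ⟨e, he, hα'⟩ := he
  obtain ⟨f, hf, hβ'⟩ := hf
  obtain ⟨g, hg, hγ'⟩ := hg
  obtain ⟨h, hh, hδ'⟩ := hh
  obtain ⟨K, hK⟩ : ∃ K, K = ∑ j, β j ^ 2 * δ j ^ 2 := ⟨_, rfl⟩
  have k1 : ∑ j, γ j ^ 2 * α j ^ 2 = K := by
    have : ∀ j, γ j ^ 2 * α j ^ 2 = 1 - β j ^ 2 - δ j ^ 2 + β j ^ 2 * δ j ^ 2 := fun j => by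
      have e1 : α j ^ 2 = 1 - β j ^ 2 := by linarith [h1 j]
      have e2 : γ j ^ 2 = 1 - δ j ^ 2 := by linarith [h2 j]
      rw [e1, e2]; ring
    simp only [this, Finset.sum_add_distrib, Finset.sum_sub_distrib, hβ, hδ, ← hK]
    simp
  have k2 : ∑ j, γ j ^ 2 * β j ^ 2 = 3 - K := by
    have : ∀ j, γ j ^ 2 * β j ^ 2 = β j ^ 2 - β j ^ 2 * δ j ^ 2 := fun j => by
      have e2 : γ j ^ 2 = 1 - δ j ^ 2 := by linarith [h2 j]
      rw [e2]; ring
    simp only [this, Finset.sum_sub_distrib, hβ, ← hK]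
  have k3 : ∑ j, δ j ^ 2 * α j ^ 2 = 3 - K := by
    have : ∀ j, δ j ^ 2 * α j ^ 2 = δ j ^ 2 - β j ^ 2 * δ j ^ 2 := fun j => by
      have e1 : α j ^ 2 = 1 - β j ^ 2 := by linarith [h1 j]
      rw [e1]; ring
    simp only [this, Finset.sum_sub_distrib, hδ, ← hK]
  have hA' : ∑ j, (γ j * α j + δ j * β j) = g * e * K + h * f * K := by
    rw [Finset.sum_add_distrib]
    congr 1
    · rw [← k1, Finset.mul_sum]
      refine Finset.sum_congr rfl fun j _ => ?_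
      conv_lhs => rw [hγ' j, hα' j]
      ring
    · rw [hK, Finset.mul_sum]
      refine Finset.sum_congr rfl fun j _ => ?_
      conv_lhs => rw [hδ' j, hβ' j]
      ring
  have hB' : ∑ j, (γ j * β j - δ j * α j) = g * f * (3 - K) - h * e * (3 - K) := by
    rw [Finset.sum_sub_distrib]
    congr 1
    · rw [← k2, Finset.mul_sum]
      refine Finset.sum_congr rfl fun j _ => ?_
      conv_lhs => rw [hγ' j, hβ' j]
      ring
    · rw [← k3, Finset.mul_sum]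
      refine Finset.sum_congr rfl fun j _ => ?_
      conv_lhs => rw [hδ' j, hα' j]
      ring
  have p1 : 1 ≤ K := by
    obtain ⟨j, hj⟩ := n5
    by_cases hz : γ j * α j = 0
    · have hw : δ j * β j ≠ 0 := by
        intro hw; exact hj (by rw [hz, hw, add_zero])
      have q1 : β j ^ 2 * δ j ^ 2 ≤ ∑ j, β j ^ 2 * δ j ^ 2 :=
        Finset.single_le_sum (f := fun j => β j ^ 2 * δ j ^ 2) (fun i _ => by positivity)
          (Finset.mem_univ j)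
      have q2 : 0 < β j ^ 2 * δ j ^ 2 := by
        have : β j ^ 2 * δ j ^ 2 = (δ j * β j) ^ 2 := by ring
        rw [this]; positivity
      omega
    · have q1 : γ j ^ 2 * α j ^ 2 ≤ ∑ j, γ j ^ 2 * α j ^ 2 :=
        Finset.single_le_sum (f := fun j => γ j ^ 2 * α j ^ 2) (fun i _ => by positivity)
          (Finset.mem_univ j)
      have q2 : 0 < γ j ^ 2 * α j ^ 2 := by
        have : γ j ^ 2 * α j ^ 2 = (γ j * α j) ^ 2 := by ring
        rw [this]; positivity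
      omega
  have p2 : 1 ≤ 3 - K := by
    obtain ⟨j, hj⟩ := n6
    by_cases hz : γ j * β j = 0
    · have hw : δ j * α j ≠ 0 := by
        intro hw; exact hj (by rw [hz, hw, sub_zero])
      have q1 : δ j ^ 2 * α j ^ 2 ≤ ∑ j, δ j ^ 2 * α j ^ 2 :=
        Finset.single_le_sum (f := fun j => δ j ^ 2 * α j ^ 2) (fun i _ => by positivity)
          (Finset.mem_univ j)
      have q2 : 0 < δ j ^ 2 * α j ^ 2 := by
        have : δ j ^ 2 * α j ^ 2 = (δ j * α j) ^ 2 := by ring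
        rw [this]; positivity
      omega
    · have q1 : γ j ^ 2 * β j ^ 2 ≤ ∑ j, γ j ^ 2 * β j ^ 2 :=
        Finset.single_le_sum (f := fun j => γ j ^ 2 * β j ^ 2) (fun i _ => by positivity)
          (Finset.mem_univ j)
      have q2 : 0 < γ j ^ 2 * β j ^ 2 := by
        have : γ j ^ 2 * β j ^ 2 = (γ j * β j) ^ 2 := by ring
        rw [this]; positivity
      omega
  rw [hA'] at hA
  rw [hB'] at hB
  rcases he with rfl | rfl <;> rcases hf with rfl | rfl <;> rcases hg with rfl | rfl <;>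
    rcases hh with rfl | rfl <;> omega

theorem card_eq (β γ : Fin 6 → ℤ) (h : ∀ j, γ j ^ 2 + β j ^ 2 = 1) :
    (((Finset.univ.filter fun j => β j ≠ 0).card : ℕ) : ℤ) = ∑ j, β j ^ 2 := by
  rw [Finset.card_filter]
  push_cast
  refine Finset.sum_congr rfl fun j _ => ?_
  rcases vals (h j) with ⟨_, h2 | h2⟩ | ⟨h2, _⟩ <;> simp [h2]

end L1

/-- ROW L1 (combinatorics). -/
theorem two_or_four (α β γ δ : Fin 6 → ℤ) (h1 : ∀ j, α j ^ 2 + β j ^ 2 = 1)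
    (h2 : ∀ j, γ j ^ 2 + δ j ^ 2 = 1) (hα : 3 ∣ ∑ j, α j) (hβ : 3 ∣ ∑ j, β j)
    (hγ : 3 ∣ ∑ j, γ j) (hδ : 3 ∣ ∑ j, δ j) (hA : 3 ∣ ∑ j, (γ j * α j + δ j * β j))
    (hB : 3 ∣ ∑ j, (γ j * β j - δ j * α j))
    (n1 : ∃ j, α j ≠ 0) (n2 : ∃ j, β j ≠ 0) (n3 : ∃ j, γ j ≠ 0) (n4 : ∃ j, δ j ≠ 0)
    (n5 : ∃ j, γ j * α j + δ j * β j ≠ 0) (n6 : ∃ j, γ j * β j - δ j * α j ≠ 0) :
    ((Finset.univ.filter fun j => β j ≠ 0).card = 2 ∨
      (Finset.univ.filter fun j => β j ≠ 0).card = 4) ∧ ∑ j, α j = 0 ∧ ∑ j, β j = 0 := by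
  have hc := L1.card_eq β α h1
  rcases L1.word α β h1 hα hβ n1 n2 with ⟨ht, ht2, ht3⟩ | ⟨ht, hte, htf⟩
  · exact ⟨by omega, ht2, ht3⟩
  exfalso
  have h3 : ∀ j, (γ j * α j + δ j * β j) ^ 2 + (γ j * β j - δ j * α j) ^ 2 = 1 := fun j => by
    have : (γ j * α j + δ j * β j) ^ 2 + (γ j * β j - δ j * α j) ^ 2 =
      (α j ^ 2 + β j ^ 2) * (γ j ^ 2 + δ j ^ 2) := by ring
    rw [this, h1, h2, one_mul]
  rcases L1.word γ δ h2 hγ hδ n3 n4 with ⟨hs, hs2, hs3⟩ | ⟨hs, hse, hsf⟩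
  · rcases L1.word (fun j => γ j * α j + δ j * β j) (fun j => γ j * β j - δ j * α j) h3 hA hB n5 n6
      with ⟨hu, _, _⟩ | ⟨hu, hue, huf⟩
    · -- parity
      have hp : ∀ j, (γ j * β j - δ j * α j) ^ 2 = β j ^ 2 + δ j ^ 2 - 2 * (β j ^ 2 * δ j ^ 2) :=
        fun j => by
          have e1 : α j ^ 2 = 1 - β j ^ 2 := by linarith [h1 j]
          have e2 : γ j ^ 2 = 1 - δ j ^ 2 := by linarith [h2 j]
          have e3 : α j * β j = 0 := by
            rcases L1.vals (h1 j) with ⟨h, _⟩ | ⟨h, _⟩ <;> simp [h]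
          have : (γ j * β j - δ j * α j) ^ 2 = γ j ^ 2 * β j ^ 2 + δ j ^ 2 * α j ^ 2 -
            2 * (γ j * δ j) * (α j * β j) := by ring
          rw [this, e1, e2, e3]; ring
      simp only [hp, Finset.sum_sub_distrib, Finset.sum_add_distrib, ← Finset.mul_sum] at hu
      omega
    · refine L1.no33 α β (fun j => γ j * α j + δ j * β j) (fun j => γ j * β j - δ j * α j) h1 h3
        ?_ ?_ ?_ ?_ ht hu hte htf hue huf
      · have : ∀ j, (γ j * α j + δ j * β j) * α j + (γ j * β j - δ j * α j) * β j = γ j :=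
          fun j => by
            have : (γ j * α j + δ j * β j) * α j + (γ j * β j - δ j * α j) * β j =
              γ j * (α j ^ 2 + β j ^ 2) := by ring
            rw [this, h1, mul_one]
        simpa only [this] using hγ
      · have : ∀ j, (γ j * α j + δ j * β j) * β j - (γ j * β j - δ j * α j) * α j = δ j :=
          fun j => by
            have : (γ j * α j + δ j * β j) * β j - (γ j * β j - δ j * α j) * α j =
              δ j * (α j ^ 2 + β j ^ 2) := by ring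
            rw [this, h1, mul_one]
        simpa only [this] using hδ
      · obtain ⟨j, hj⟩ := n3
        refine ⟨j, ?_⟩
        have : (γ j * α j + δ j * β j) * α j + (γ j * β j - δ j * α j) * β j =
          γ j * (α j ^ 2 + β j ^ 2) := by ring
        rw [this, h1, mul_one]
        exact hj
      · obtain ⟨j, hj⟩ := n4
        refine ⟨j, ?_⟩
        have : (γ j * α j + δ j * β j) * β j - (γ j * β j - δ j * α j) * α j =
          δ j * (α j ^ 2 + β j ^ 2) := by ring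
        rw [this, h1, mul_one]
        exact hj
  · exact L1.no33 α β γ δ h1 h2 hA hB n5 n6 ht hs hte htf hse hsf

end Vale.Agent.P355
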