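import Mathlib

/-! P355: the odd places of two orthogonal words are not disjoint. -/

namespace Vale.Agent.P355.L3

theorem sgn {x : ℤ} (h : x ^ 2 = 1) : x = 1 ∨ x = -1 := by
  rcases (mul_eq_zero.mp (show (x - 1) * (x + 1) = 0 by linear_combination h)) with h | h
  · left; omega
  · right; omega

theorem core (bp bq gp gq dr ds ar as au av gu gv : ℤ)
    (h1 : bp ^ 2 = 1) (h2 : gp ^ 2 = 1) (h3 : gq ^ 2 = 1) (h4 : dr ^ 2 = 1) (h5 : ar ^ 2 = 1)
    (h6 : as ^ 2 = 1) (h7 : au ^ 2 = 1) (h8 : av ^ 2 = 1) (h9 : gu ^ 2 = 1) (h10 : gv ^ 2 = 1)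
    (hb : bp + bq = 0) (hd : dr + ds = 0)
    (ha : ar + as + au + av = 0) (hg : gp + gq + gu + gv = 0)
    (hA : 3 ∣ gu * au + gv * av) (hB : 3 ∣ gp * bp + gq * bq - dr * ar - ds * as) : False := by
  obtain rfl : bq = -bp := by omega
  obtain rfl : ds = -dr := by omega
  rcases sgn h7 with rfl | rfl <;> rcases sgn h8 with rfl | rfl <;>
    rcases sgn h9 with rfl | rfl <;> rcases sgn h10 with rfl | rfl <;>
    first
    | (exfalso; omega)
    | (rcases sgn h2 with rfl | rfl <;> rcases sgn h3 with rfl | rfl <;>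
       first
       | (exfalso; omega)
       | (rcases sgn h5 with rfl | rfl <;> rcases sgn h6 with rfl | rfl <;>
          first
          | (exfalso; omega)
          | (rcases sgn h1 with rfl | rfl <;> rcases sgn h4 with rfl | rfl <;> omega)))

theorem zero_of_one {x y : ℤ} (h : x ^ 2 + y ^ 2 = 1) (hy : y ≠ 0) : x = 0 ∧ y ^ 2 = 1 := by
  have h1 : 0 < y ^ 2 := by positivity
  have h2 : 0 ≤ x ^ 2 := sq_nonneg x
  have h3 : x ^ 2 = 0 := by omega
  exact ⟨by simpa using h3, by omega⟩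

theorem one_of_zero {x y : ℤ} (h : x ^ 2 + y ^ 2 = 1) (hy : y = 0) : x ^ 2 = 1 := by
  subst hy; simpa using h

end Vale.Agent.P355.L3

namespace Vale.Agent.P355

open L3 in
/-- The odd places of two orthogonal words are not disjoint. -/
theorem not_disjoint (α β γ δ : Fin 6 → ℤ) (h1 : ∀ j, α j ^ 2 + β j ^ 2 = 1)
    (h2 : ∀ j, γ j ^ 2 + δ j ^ 2 = 1) (hα : ∑ j, α j = 0) (hβ : ∑ j, β j = 0)
    (hγ : ∑ j, γ j = 0) (hδ : ∑ j, δ j = 0) (hA : 3 ∣ ∑ j, (γ j * α j + δ j * β j))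
    (hB : 3 ∣ ∑ j, (γ j * β j - δ j * α j))
    (c1 : (Finset.univ.filter fun j => β j ≠ 0).card = 2)
    (c2 : (Finset.univ.filter fun j => δ j ≠ 0).card = 2)
    (hd : ∀ j, β j = 0 ∨ δ j = 0) : False := by
  classical
  obtain ⟨p, q, hpq, e1⟩ := Finset.card_eq_two.mp c1
  obtain ⟨r, s, hrs, e2⟩ := Finset.card_eq_two.mp c2
  have m1 : ∀ j, β j ≠ 0 ↔ j = p ∨ j = q := fun j => by
    have := Finset.ext_iff.mp e1 j
    simpa using this
  have m2 : ∀ j, δ j ≠ 0 ↔ j = r ∨ j = s := fun j => by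
    have := Finset.ext_iff.mp e2 j
    simpa using this
  have bp : β p ≠ 0 := (m1 p).mpr (Or.inl rfl)
  have bq : β q ≠ 0 := (m1 q).mpr (Or.inr rfl)
  have dr : δ r ≠ 0 := (m2 r).mpr (Or.inl rfl)
  have ds : δ s ≠ 0 := (m2 s).mpr (Or.inr rfl)
  have dp : δ p = 0 := (hd p).resolve_left bp
  have dq : δ q = 0 := (hd q).resolve_left bq
  have br : β r = 0 := (hd r).resolve_right dr
  have bs : β s = 0 := (hd s).resolve_right ds
  have hpr : p ≠ r := fun h => bp (h ▸ br)
  have hps : p ≠ s := fun h => bp (h ▸ bs)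
  have hqr : q ≠ r := fun h => bq (h ▸ br)
  have hqs : q ≠ s := fun h => bq (h ▸ bs)
  have hc4 : (({p, q, r, s} : Finset (Fin 6))).card = 4 := by
    rw [Finset.card_insert_of_notMem, Finset.card_insert_of_notMem, Finset.card_pair hrs]
    · simp [hqr, hqs]
    · simp [hpq, hpr, hps]
  have hcc : (({p, q, r, s} : Finset (Fin 6))ᶜ).card = 2 := by
    rw [Finset.card_compl, hc4]; rfl
  obtain ⟨u, v, huv, e3⟩ := Finset.card_eq_two.mp hcc
  have m3 : ∀ j, ¬ (j = p ∨ j = q ∨ j = r ∨ j = s) ↔ j = u ∨ j = v := fun j => by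
    have := Finset.ext_iff.mp e3 j
    simpa using this
  have hu := (m3 u).mpr (Or.inl rfl)
  have hv := (m3 v).mpr (Or.inr rfl)
  push Not at hu hv
  obtain ⟨up, uq, ur, us⟩ := hu
  obtain ⟨vp, vq, vr, vs⟩ := hv
  have bu : β u = 0 := by
    by_contra h
    rcases (m1 u).mp h with h | h
    · exact up h
    · exact uq h
  have bv : β v = 0 := by
    by_contra h
    rcases (m1 v).mp h with h | h
    · exact vp h
    · exact vq h
  have du : δ u = 0 := by
    by_contra h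
    rcases (m2 u).mp h with h | h
    · exact ur h
    · exact us h
  have dv : δ v = 0 := by
    by_contra h
    rcases (m2 v).mp h with h | h
    · exact vr h
    · exact vs h
  have hS : ∀ f : Fin 6 → ℤ, ∑ j, f j = f p + f q + f r + f s + f u + f v := by
    intro f
    rw [← Finset.sum_add_sum_compl ({p, q, r, s} : Finset (Fin 6)) f, e3, Finset.sum_pair huv,
      Finset.sum_insert (by simp [hpq, hpr, hps]), Finset.sum_insert (by simp [hqr, hqs]),
      Finset.sum_pair hrs]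
    ring
  obtain ⟨ap, bp2⟩ := zero_of_one (h1 p) bp
  obtain ⟨aq, bq2⟩ := zero_of_one (h1 q) bq
  obtain ⟨gr, dr2⟩ := zero_of_one (h2 r) dr
  obtain ⟨gs, ds2⟩ := zero_of_one (h2 s) ds
  rw [hS] at hα hβ hγ hδ hA hB
  simp only [ap, aq, gr, gs, br, bs, bu, bv, dp, dq, du, dv, mul_zero, zero_mul, add_zero,
    zero_add, sub_zero, zero_sub] at hα hβ hγ hδ hA hB
  exact core (β p) (β q) (γ p) (γ q) (δ r) (δ s) (α r) (α s) (α u) (α v) (γ u) (γ v)
    bp2 (one_of_zero (h2 p) dp) (one_of_zero (h2 q) dq) dr2 (one_of_zero (h1 r) br)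
    (one_of_zero (h1 s) bs) (one_of_zero (h1 u) bu) (one_of_zero (h1 v) bv)
    (one_of_zero (h2 u) du) (one_of_zero (h2 v) dv) hβ hδ hα hγ hA
    (by have e : γ p * β p + γ q * β q - δ r * α r - δ s * α s
          = γ p * β p + γ q * β q + -(δ r * α r) + -(δ s * α s) := by ring
        rw [e]; exact hB)

end Vale.Agent.P355
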