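import Mathlib

/-! P355: mutually unbiased bases of `ℂ^6`, definitions. -/

namespace Vale.Agent.P355

/-- The orthonormal bases of `ℂ^6`. -/
abbrev ONB := OrthonormalBasis (Fin 6) ℂ (EuclideanSpace ℂ (Fin 6))

/-- Two orthonormal bases of `ℂ^6` are mutually unbiased. -/
def MUO (e b : ONB) : Prop := ∀ i j, ‖inner ℂ (e i) (b j)‖ ^ 2 = 1 / 6

/-- The phases of the vectors of `b` with respect to `e` are `N`-th roots of unity: the coordinates
of each vector of `b` in the basis `e` differ from each other by `N`-th roots of unity. -/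
def PhasesIn (N : ℕ) (e b : ONB) : Prop :=
  ∀ i i' j, (inner ℂ (e i) (b j) / inner ℂ (e i') (b j)) ^ N = 1

/-- There are `m` pairwise mutually unbiased bases of `ℂ^6`, whose phases with respect to one of
them are `N`-th roots of unity. -/
def HasSystem (N m : ℕ) : Prop :=
  ∃ (B : Fin m → ONB) (r₀ : Fin m), (∀ r s, r ≠ s → MUO (B r) (B s)) ∧
    ∀ r, r ≠ r₀ → PhasesIn N (B r₀) (B r)

end Vale.Agent.P355
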