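import Vale.Agent.P355.Core
import Vale.Agent.P355.Model

/-! P355: mutually unbiased bases of `ℂ^6` with phases roots of unity. -/

namespace Vale.Agent.P355

open Complex

theorem MUO.ne_zero {e b : ONB} (h : MUO e b) (i j : Fin 6) : inner ℂ (e i) (b j) ≠ (0 : ℂ) := by
  intro h0
  have h1 := h i j
  rw [h0, norm_zero] at h1
  norm_num at h1

theorem MUO.norm_eq {e b : ONB} (h : MUO e b) (i j : Fin 6) :
    ‖(inner ℂ (e i) (b j) : ℂ)‖ = 1 / √6 := by
  have h1 := h i j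
  have h2 : ‖(inner ℂ (e i) (b j) : ℂ)‖ = √(1 / 6) := by
    rw [← h1, Real.sqrt_sq (norm_nonneg _)]
  rw [h2, Real.sqrt_div zero_le_one, Real.sqrt_one]

/-- the triple products -/
theorem triple (N s : ℕ) (hs : 1 ≤ s) (hN : N ∣ 2 * (2 ^ s + 1) ∨ N ∣ 3 ^ s + 1)
    {e b c : ONB} (heb : MUO e b) (hec : MUO e c) (hbc : MUO b c) (j k : Fin 6) :
    ¬ ∀ i i', ((inner ℂ (b j) (e i) * inner ℂ (e i) (c k)) /
      (inner ℂ (b j) (e i') * inner ℂ (e i') (c k)) : ℂ) ^ N = 1 := by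
  intro h
  let x : Fin 6 → ℂ := fun i => inner ℂ (b j) (e i) * inner ℂ (e i) (c k)
  have hbn : ∀ i, ‖(inner ℂ (b j) (e i) : ℂ)‖ = 1 / √6 := by
    intro i
    rw [← heb.norm_eq i j, ← inner_conj_symm, RCLike.norm_conj]
  have hxn : ∀ i, ‖x i‖ = 1 / 6 := by
    intro i
    show ‖(inner ℂ (b j) (e i) * inner ℂ (e i) (c k) : ℂ)‖ = 1 / 6
    rw [norm_mul, hbn, hec.norm_eq, div_mul_div_comm, one_mul,
      Real.mul_self_sqrt (by norm_num)]
  have hx0 : ∀ i, x i ≠ 0 := by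
    intro i h0
    have := hxn i
    rw [h0, norm_zero] at this
    norm_num at this
  have hsum : ∑ i, x i = inner ℂ (b j) (c k) := e.sum_inner_mul_inner (b j) (c k)
  have hsn : ‖∑ i, x i‖ ^ 2 = 1 / 6 := by
    rw [hsum]
    exact hbc j k
  refine no_six N s hs hN (fun i => x i / x 0) (fun i => h i 0) ?_
  have h1 : ∑ i, x i / x 0 = (∑ i, x i) / x 0 := by rw [Finset.sum_div]
  rw [h1, Complex.normSq_eq_norm_sq, norm_div, div_pow, hsn, hxn]
  norm_num

theorem not_three (N s : ℕ) (hs : 1 ≤ s) (hN : N ∣ 2 * (2 ^ s + 1) ∨ N ∣ 3 ^ s + 1) (m : ℕ)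
    (h : HasSystem N m) : m ≤ 2 := by
  obtain ⟨B, r₀, hB, hP⟩ := h
  by_contra hm
  push Not at hm
  -- two other indices
  have h1 : 1 < (Finset.univ.erase r₀).card := by
    rw [Finset.card_erase_of_mem (Finset.mem_univ _), Finset.card_univ, Fintype.card_fin]
    omega
  obtain ⟨r, hr, s', hs', hrs⟩ := Finset.one_lt_card.1 h1
  have hr' := (Finset.mem_erase.1 hr).1
  have hs'' := (Finset.mem_erase.1 hs').1
  refine triple N s hs hN (hB r₀ r hr'.symm) (hB r₀ s' hs''.symm) (hB r s' hrs) 0 0 ?_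
  intro i i'
  have e1 : ∀ i, (inner ℂ (B r 0) (B r₀ i) : ℂ) =
      (starRingEnd ℂ) (inner ℂ (B r₀ i) (B r 0)) := fun i => (inner_conj_symm _ _).symm
  rw [mul_div_mul_comm, mul_pow, hP s' hs'' i i' 0, mul_one, e1, e1, ← map_div₀, ← map_pow,
    hP r hr' i i' 0, map_one]

end Vale.Agent.P355
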