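import Vale.Agent.P355.RepDefs
import Vale.Agent.P355.Core

/-! P355 (four bases): the coefficient sums are divisible by three. -/

namespace Vale.Agent.P355

open Complex

/-- a sum of two squares divisible by three -/
theorem three_dvd_of_sq (a b : ℤ) (h : (3 : ℤ) ∣ a ^ 2 + b ^ 2) : 3 ∣ a ∧ 3 ∣ b := by
  have ha : a % 3 = 0 ∨ a % 3 = 1 ∨ a % 3 = 2 := by omega
  have hb : b % 3 = 0 ∨ b % 3 = 1 ∨ b % 3 = 2 := by omega
  have h0 : (a ^ 2 + b ^ 2) % 3 = 0 := Int.emod_eq_zero_of_dvd h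
  rw [Int.add_emod, pow_two, pow_two, Int.mul_emod, Int.mul_emod b b] at h0
  rcases ha with ha | ha | ha <;> rcases hb with hb | hb | hb <;> rw [ha, hb] at h0 <;>
    first
      | exact ⟨Int.dvd_of_emod_eq_zero ha, Int.dvd_of_emod_eq_zero hb⟩
      | (exfalso; revert h0; decide)

/-- The reduction modulo a maximal ideal above three. -/
theorem three_dvd_core (b : ℕ) (A B : Fin 6 → ℤ) (J : O) (hJ : J * J = -1) (W W' : Fin 6 → O)
    (hW : ∀ j, W j ^ 3 ^ b = 1) (hW' : ∀ j, W' j ^ 3 ^ b = 1) (k : ℕ) (hk : 3 ∣ k)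
    (h : (∑ j, ((A j : O) + (B j : O) * J) * W j) * (∑ j, ((A j : O) - (B j : O) * J) * W' j)
      = (k : O)) : 3 ∣ ∑ j, A j ∧ 3 ∣ ∑ j, B j := by
  obtain ⟨M, hM, h3M⟩ := exists_max_ideal_of_mem_nonunits (nonunit 3 Nat.prime_three)
  have hMp : M.IsPrime := hM.isPrime
  let f := Ideal.Quotient.mk M
  have hf3 : f ((3 : ℕ) : O) = 0 := Ideal.Quotient.eq_zero_iff_mem.2 h3M
  have hK3 : ((3 : ℕ) : O ⧸ M) = 0 := by rw [← hf3, map_natCast]
  have hch : CharP (O ⧸ M) 3 :=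
    ringChar.of_eq (CharP.ringChar_of_prime_eq_zero Nat.prime_three hK3)
  have hpF : Fact (Nat.Prime 3) := ⟨Nat.prime_three⟩
  have hone : ∀ z : O, z ^ 3 ^ b = 1 → f z = 1 := by
    intro z hz
    have h1 : (f z - 1) ^ 3 ^ b = 0 := by
      rw [sub_pow_char_pow, ← map_pow, hz, map_one, one_pow, sub_self]
    exact sub_eq_zero.1 (pow_eq_zero_iff (pow_ne_zero b (by norm_num)) |>.1 h1)
  have hJ' : f J * f J = -1 := by rw [← map_mul, hJ, map_neg, map_one]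
  have hkey := congrArg f h
  rw [map_mul, map_sum, map_sum] at hkey
  have e1 : ∑ j, f (((A j : O) + (B j : O) * J) * W j)
      = ((∑ j, A j : ℤ) : O ⧸ M) + ((∑ j, B j : ℤ) : O ⧸ M) * f J := by
    push_cast
    rw [Finset.sum_mul, ← Finset.sum_add_distrib]
    refine Finset.sum_congr rfl fun j _ => ?_
    rw [map_mul, hone _ (hW j), mul_one, map_add, map_mul, map_intCast, map_intCast]
  have e2 : ∑ j, f (((A j : O) - (B j : O) * J) * W' j)
      = ((∑ j, A j : ℤ) : O ⧸ M) - ((∑ j, B j : ℤ) : O ⧸ M) * f J := by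
    push_cast
    rw [Finset.sum_mul, ← Finset.sum_sub_distrib]
    refine Finset.sum_congr rfl fun j _ => ?_
    rw [map_mul, hone _ (hW' j), mul_one, map_sub, map_mul, map_intCast, map_intCast]
  have e3 : f ((k : ℕ) : O) = 0 := by
    obtain ⟨m, rfl⟩ := hk
    rw [Nat.cast_mul, map_mul, hf3, zero_mul]
  rw [e1, e2, e3] at hkey
  have h2 : (((∑ j, A j) ^ 2 + (∑ j, B j) ^ 2 : ℤ) : O ⧸ M) = 0 := by
    rw [← hkey, Int.cast_add, Int.cast_pow, Int.cast_pow]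
    linear_combination ((∑ j, B j : ℤ) : O ⧸ M) ^ 2 * hJ'
  have h3 : (((3 : ℕ) : ℤ)) ∣ (∑ j, A j) ^ 2 + (∑ j, B j) ^ 2 :=
    (CharP.intCast_eq_zero_iff (O ⧸ M) 3 _).1 h2
  exact three_dvd_of_sq _ _ (by exact_mod_cast h3)

/-- Both coefficient sums are divisible by three. -/
theorem three_dvd (b : ℕ) {t w : Fin 6 → ℂ} {α β : Fin 6 → ℤ} (h : Rep b t α β w)
    (hs : normSq (∑ j, t j) = 6 ∨ ∑ j, t j = 0) : 3 ∣ ∑ j, α j ∧ 3 ∣ ∑ j, β j := by
  have hN : (3 ^ b : ℕ) ≠ 0 := pow_ne_zero b (by norm_num)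
  have hI : ∀ z : ℂ, z ^ 3 ^ b = 1 → IsIntegral ℤ z := fun z hz =>
    IsIntegral.of_pow (Nat.pos_of_ne_zero hN) (by rw [hz]; exact isIntegral_one)
  have hII : IsIntegral ℤ I :=
    IsIntegral.of_pow (n := 2) (by norm_num) (by rw [I_sq]; exact isIntegral_one.neg)
  let J : O := ⟨I, hII⟩
  let W : Fin 6 → O := fun j => ⟨w j, hI _ (h j).2.1⟩
  let W' : Fin 6 → O := fun j => ⟨(starRingEnd ℂ) (w j), isIntegral_conj (hI _ (h j).2.1)⟩
  have hc : ∀ n : ℤ, ((n : O) : ℂ) = (n : ℂ) := fun n => map_intCast (algebraMap O ℂ) n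
  have hP : ((∑ j, ((α j : O) + (β j : O) * J) * W j : O) : ℂ) = ∑ j, t j := by
    rw [AddSubmonoidClass.coe_finsetSum]
    refine Finset.sum_congr rfl fun j _ => ?_
    rw [Subalgebra.coe_mul, Subalgebra.coe_add, Subalgebra.coe_mul, hc, hc, (h j).1]
  have hQ : ((∑ j, ((α j : O) - (β j : O) * J) * W' j : O) : ℂ) = (starRingEnd ℂ) (∑ j, t j) := by
    rw [AddSubmonoidClass.coe_finsetSum, map_sum]
    refine Finset.sum_congr rfl fun j _ => ?_
    rw [Subalgebra.coe_mul, Subalgebra.coe_sub, Subalgebra.coe_mul, hc, hc, (h j).1, map_mul,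
      map_add, map_mul, conj_I, map_intCast, map_intCast]
    show ((α j : ℂ) - (β j : ℂ) * I) * (starRingEnd ℂ) (w j) = _
    ring
  have hcast : ∀ n : ℕ, ((n : O) : ℂ) = (n : ℂ) := fun n => map_natCast (algebraMap O ℂ) n
  have hprod : ∃ k : ℕ, 3 ∣ k ∧
      (∑ j, ((α j : O) + (β j : O) * J) * W j) * (∑ j, ((α j : O) - (β j : O) * J) * W' j)
        = (k : O) := by
    rcases hs with hs | hs
    · refine ⟨6, by norm_num, Subtype.ext ?_⟩
      rw [Subalgebra.coe_mul, hP, hQ, hcast, mul_conj, hs]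
      norm_num
    · refine ⟨0, by norm_num, Subtype.ext ?_⟩
      rw [Subalgebra.coe_mul, hP, hQ, hcast, hs]
      simp
  obtain ⟨k, hk, hprod⟩ := hprod
  refine three_dvd_core b α β J (Subtype.ext ?_) W W' (fun j => Subtype.ext ?_)
    (fun j => Subtype.ext ?_) k hk hprod
  · show I * I = ((-1 : O) : ℂ)
    rw [I_mul_I, Subalgebra.coe_neg, Subalgebra.coe_one]
  · show w j ^ 3 ^ b = 1
    exact (h j).2.1
  · show (starRingEnd ℂ) (w j) ^ 3 ^ b = 1
    rw [← map_pow, (h j).2.1, map_one]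

end Vale.Agent.P355
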