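import Vale.Agent.P355.RepDefs

/-! P355 (four bases): row REP. -/

namespace Vale.Agent.P355

open Complex

theorem rep_one (b : ℕ) (z : ℂ) (hz : z ^ (4 * 3 ^ b) = 1) :
    ∃ (α β : ℤ) (w : ℂ), z = ((α : ℂ) + (β : ℂ) * I) * w ∧ w ^ 3 ^ b = 1 ∧ α ^ 2 + β ^ 2 = 1 := by
  have h4 : 4 ∣ 1 + 3 * (3 ^ b) ^ 2 := by
    have h1 : (3 ^ b) ^ 2 = 9 ^ b := by rw [← pow_mul, mul_comm, pow_mul]; norm_num
    have h2 : 9 ^ b % 4 = 1 := by rw [Nat.pow_mod]; norm_num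
    rw [h1]
    omega
  obtain ⟨m, hm⟩ := h4
  have e1 : z = z ^ ((3 ^ b) ^ 2) * z ^ (1 + 3 * (3 ^ b) ^ 2) := by
    rw [← pow_add]
    have h1 : (3 ^ b) ^ 2 + (1 + 3 * (3 ^ b) ^ 2) = (4 * 3 ^ b) * 3 ^ b + 1 := by ring
    rw [h1, pow_add, pow_mul, hz, one_pow, one_mul, pow_one]
  have e2 : (z ^ (1 + 3 * (3 ^ b) ^ 2)) ^ 3 ^ b = 1 := by
    rw [hm, ← pow_mul]
    have h1 : 4 * m * 3 ^ b = (4 * 3 ^ b) * m := by ring
    rw [h1, pow_mul, hz, one_pow]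
  have e3 : (z ^ ((3 ^ b) ^ 2)) ^ 4 = 1 := by
    rw [← pow_mul]
    have h1 : (3 ^ b) ^ 2 * 4 = (4 * 3 ^ b) * 3 ^ b := by ring
    rw [h1, pow_mul, hz, one_pow]
  set ρ := z ^ ((3 ^ b) ^ 2) with hρ
  set w := z ^ (1 + 3 * (3 ^ b) ^ 2) with hw
  have h5 : ρ ^ 2 = 1 ∨ ρ ^ 2 = -1 := by
    rw [← mul_self_eq_one_iff, ← pow_two, ← pow_mul]
    exact e3
  rcases h5 with h5 | h5
  · rw [pow_two, mul_self_eq_one_iff] at h5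
    rcases h5 with h5 | h5
    · exact ⟨1, 0, w, by rw [e1, h5]; push_cast; ring, e2, by norm_num⟩
    · exact ⟨-1, 0, w, by rw [e1, h5]; push_cast; ring, e2, by norm_num⟩
  · rw [← I_sq, sq_eq_sq_iff_eq_or_eq_neg] at h5
    rcases h5 with h5 | h5
    · exact ⟨0, 1, w, by rw [e1, h5]; push_cast; ring, e2, by norm_num⟩
    · exact ⟨0, -1, w, by rw [e1, h5]; push_cast; ring, e2, by norm_num⟩

/-- ROW REP. -/
theorem exists_rep (b : ℕ) (t : Fin 6 → ℂ) (ht : ∀ j, t j ^ (4 * 3 ^ b) = 1) :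
    ∃ (α β : Fin 6 → ℤ) (w : Fin 6 → ℂ), Rep b t α β w := by
  choose α β w h using fun j => rep_one b (t j) (ht j)
  exact ⟨α, β, w, h⟩

end Vale.Agent.P355
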