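import Vale.Agent.P355.RepDefs

/-! P355 (four bases): `i` and `-i` are conjugate over the field of `3 ^ b`-th roots of unity. -/

namespace Vale.Agent.P355

open Complex

namespace SepAux

/-- a primitive root of unity of order `4 * 3 ^ b` -/
noncomputable def zt (b : ℕ) : ℂ := Complex.exp (2 * Real.pi * I / ((4 * 3 ^ b : ℕ) : ℂ))

theorem zt_prim (b : ℕ) : IsPrimitiveRoot (zt b) (4 * 3 ^ b) :=
  Complex.isPrimitiveRoot_exp _ (by positivity)

theorem zt_pow (b : ℕ) : zt b ^ 3 ^ b = I := by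
  unfold zt
  rw [← Complex.exp_nat_mul]
  have h : ((3 ^ b : ℕ) : ℂ) * (2 * Real.pi * I / ((4 * 3 ^ b : ℕ) : ℂ)) = Real.pi / 2 * I := by
    have h3 : ((3 : ℂ) ^ b) ≠ 0 := pow_ne_zero _ (by norm_num)
    push_cast
    field_simp
    ring
  rw [h, Complex.exp_pi_div_two_mul_I]

/-- a primitive root of unity of order `3 ^ b` -/
noncomputable def et (b : ℕ) : ℂ := zt b ^ 4

theorem et_prim (b : ℕ) : IsPrimitiveRoot (et b) (3 ^ b) :=
  (zt_prim b).pow (by positivity) rfl

/-- the real and the imaginary part of a relation -/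
theorem split (b : ℕ) (U V : Polynomial ℤ)
    (h : Polynomial.aeval (et b) U + I * Polynomial.aeval (et b) V = 0) :
    Polynomial.aeval (et b) U = 0 ∧ Polynomial.aeval (et b) V = 0 := by
  have hodd : Odd (3 ^ b) := (by decide : Odd 3).pow
  have hcop : (1 + 2 * 3 ^ b).Coprime (4 * 3 ^ b) := by
    apply Nat.Coprime.mul_right
    · have : Nat.Coprime (1 + 2 * 3 ^ b) 2 := by
        rw [Nat.coprime_two_right]
        exact ⟨3 ^ b, by ring⟩
      exact Nat.Coprime.pow_right 2 this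
    · exact (Nat.coprime_add_mul_right_left 1 (3 ^ b) 2).2 (Nat.coprime_one_left _)
  set P : Polynomial ℤ := Polynomial.expand ℤ 4 U + Polynomial.X ^ 3 ^ b * Polynomial.expand ℤ 4 V
    with hP
  have h1 : Polynomial.aeval (zt b) P = 0 := by
    rw [hP, map_add, map_mul, map_pow, Polynomial.aeval_X, Polynomial.expand_aeval,
      Polynomial.expand_aeval, zt_pow]
    exact h
  have h2 : Polynomial.aeval (zt b ^ (1 + 2 * 3 ^ b)) P = 0 := by
    have hint : IsIntegral ℤ (zt b) := (zt_prim b).isIntegral (by positivity)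
    have hd : minpoly ℤ (zt b) ∣ P := minpoly.isIntegrallyClosed_dvd hint h1
    rw [(zt_prim b).minpoly_eq_pow_coprime hcop] at hd
    obtain ⟨Q, hQ⟩ := hd
    rw [hQ, map_mul, minpoly.aeval, zero_mul]
  have e1 : (zt b ^ (1 + 2 * 3 ^ b)) ^ 4 = et b := by
    have : (et b) ^ 3 ^ b = 1 := (et_prim b).pow_eq_one
    rw [← pow_mul, mul_comm (1 + 2 * 3 ^ b) 4, pow_mul]
    change et b ^ (1 + 2 * 3 ^ b) = et b
    rw [pow_add, pow_one, mul_comm 2, pow_mul, this, one_pow, mul_one]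
  have e2 : (zt b ^ (1 + 2 * 3 ^ b)) ^ 3 ^ b = -I := by
    rw [← pow_mul, mul_comm, pow_mul, zt_pow, pow_add, pow_one, pow_mul, I_sq, hodd.neg_one_pow]
    ring
  rw [hP, map_add, map_mul, map_pow, Polynomial.aeval_X, Polynomial.expand_aeval,
    Polynomial.expand_aeval, e1, e2] at h2
  have h3 : Polynomial.aeval (et b) U = 0 := by linear_combination (h + h2) / 2
  refine ⟨h3, ?_⟩
  rw [h3, zero_add] at h
  exact (mul_eq_zero.1 h).resolve_left I_ne_zero

theorem exists_exp (b : ℕ) {w : Fin 6 → ℂ} (hw : ∀ j, w j ^ 3 ^ b = 1) :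
    ∃ k : Fin 6 → ℕ, ∀ j, w j = et b ^ k j := by
  have : ∀ j, ∃ k : ℕ, w j = et b ^ k := by
    intro j
    have : NeZero (3 ^ b) := ⟨by positivity⟩
    obtain ⟨k, _, hk⟩ := (et_prim b).eq_pow_of_pow_eq_one (hw j)
    exact ⟨k, hk.symm⟩
  choose k hk using this
  exact ⟨k, hk⟩

/-- the polynomial of a sum of roots of unity -/
noncomputable def pol (c : Fin 6 → ℤ) (k : Fin 6 → ℕ) : Polynomial ℤ :=
  ∑ j, Polynomial.C (c j) * Polynomial.X ^ k j

theorem aeval_pol (b : ℕ) (c : Fin 6 → ℤ) (k : Fin 6 → ℕ) :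
    Polynomial.aeval (et b) (pol c k) = ∑ j, (c j : ℂ) * et b ^ k j := by
  unfold pol
  simp

end SepAux

open SepAux

theorem sep_zero (b : ℕ) {t w : Fin 6 → ℂ} {α β : Fin 6 → ℤ} (h : Rep b t α β w)
    (hs : ∑ j, t j = 0) : ∑ j, (α j : ℂ) * w j = 0 ∧ ∑ j, (β j : ℂ) * w j = 0 := by
  obtain ⟨k, hk⟩ := exists_exp b (fun j => (h j).2.1)
  have h1 : ∑ j, t j = ∑ j, (α j : ℂ) * w j + I * ∑ j, (β j : ℂ) * w j := by
    rw [Finset.mul_sum, ← Finset.sum_add_distrib]
    refine Finset.sum_congr rfl fun j _ => ?_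
    rw [(h j).1]
    ring
  have e : ∀ c : Fin 6 → ℤ, ∑ j, (c j : ℂ) * w j = Polynomial.aeval (et b) (pol c k) := by
    intro c
    rw [aeval_pol]
    exact Finset.sum_congr rfl fun j _ => by rw [hk j]
  rw [e α, e β] at h1 ⊢
  exact split b _ _ (h1.symm.trans hs)

theorem sep_norm (b : ℕ) {t w : Fin 6 → ℂ} {α β : Fin 6 → ℤ} (h : Rep b t α β w)
    (hs : normSq (∑ j, t j) = 6) :
    (∑ j, (α j : ℂ) * w j) * (starRingEnd ℂ) (∑ j, (α j : ℂ) * w j) +
      (∑ j, (β j : ℂ) * w j) * (starRingEnd ℂ) (∑ j, (β j : ℂ) * w j) = 6 ∧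
    (∑ j, (α j : ℂ) * w j) * (starRingEnd ℂ) (∑ j, (β j : ℂ) * w j) =
      (starRingEnd ℂ) (∑ j, (α j : ℂ) * w j) * (∑ j, (β j : ℂ) * w j) := by
  obtain ⟨k, hk⟩ := exists_exp b (fun j => (h j).2.1)
  obtain ⟨l, hl⟩ := exists_exp b (w := fun j => (starRingEnd ℂ) (w j)) (fun j => by
    rw [← map_pow, (h j).2.1, map_one])
  have h1 : ∑ j, t j = ∑ j, (α j : ℂ) * w j + I * ∑ j, (β j : ℂ) * w j := by
    rw [Finset.mul_sum, ← Finset.sum_add_distrib]
    refine Finset.sum_congr rfl fun j _ => ?_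
    rw [(h j).1]
    ring
  have e : ∀ c : Fin 6 → ℤ, ∑ j, (c j : ℂ) * w j = Polynomial.aeval (et b) (pol c k) := by
    intro c
    rw [aeval_pol]
    exact Finset.sum_congr rfl fun j _ => by rw [hk j]
  have e' : ∀ c : Fin 6 → ℤ, (starRingEnd ℂ) (∑ j, (c j : ℂ) * w j) =
      Polynomial.aeval (et b) (pol c l) := by
    intro c
    rw [aeval_pol, map_sum]
    refine Finset.sum_congr rfl fun j _ => ?_
    rw [map_mul, hl j]
    simp
  have h2 : (∑ j, t j) * (starRingEnd ℂ) (∑ j, t j) = 6 := by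
    rw [Complex.mul_conj, hs]
    norm_num
  rw [h1, map_add, map_mul, Complex.conj_I, e' α, e' β, e α, e β] at h2
  rw [e' α, e' β, e α, e β]
  have h3 := split b (pol α k * pol α l + pol β k * pol β l - 6)
    (pol β k * pol α l - pol α k * pol β l) (by
      simp only [map_sub, map_add, map_mul, map_ofNat]
      linear_combination h2 + (Polynomial.aeval (et b) (pol β k)) *
        (Polynomial.aeval (et b) (pol β l)) * (I_sq)
      )
  simp only [map_sub, map_add, map_mul, map_ofNat] at h3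
  exact ⟨by linear_combination h3.1, by linear_combination - h3.2⟩

end Vale.Agent.P355
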