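import Vale.Agent.P355.Core
import Vale.Agent.P355.Rep
import Vale.Agent.P355.Sep
import Vale.Agent.P355.Mod3
import Vale.Agent.P355.Desc
import Vale.Agent.P355.L1
import Vale.Agent.P355.L3

/-! P355 (four bases): the main argument. -/

namespace Vale.Agent.P355

open Complex

theorem three_pow_dvd (b : ℕ) : 2 * 3 ^ (b + 1) ∣ 2 * (2 ^ 3 ^ b + 1) := by
  apply Nat.mul_dvd_mul_left
  induction b with
  | zero => norm_num
  | succ b ih =>
    obtain ⟨m, hm⟩ := ih
    have h1 : 2 ^ 3 ^ (b + 1) + 1 = (2 ^ 3 ^ b + 1) * ((2 ^ 3 ^ b + 1) * (2 ^ 3 ^ b + 1) + 3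
        - 3 * (2 ^ 3 ^ b + 1)) := by
      have e : 2 ^ 3 ^ (b + 1) = (2 ^ 3 ^ b) ^ 3 := by rw [← pow_mul, pow_succ]
      rw [e]
      have hy1 : 1 ≤ 2 ^ 3 ^ b := Nat.one_le_two_pow
      obtain ⟨z, hz⟩ := Nat.exists_eq_add_of_le hy1
      rw [hz]
      have e2 : (1 + z + 1) * (1 + z + 1) + 3 - 3 * (1 + z + 1) = z * z + z + 1 := by
        have : (1 + z + 1) * (1 + z + 1) + 3 = (z * z + z + 1) + 3 * (1 + z + 1) := by ring
        rw [this, Nat.add_sub_cancel]
      rw [e2]
      ring
    rw [h1, hm, pow_succ 3 (b + 1)]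
    apply Nat.mul_dvd_mul (Dvd.intro _ rfl)
    rw [pow_succ 3 b]
    apply Nat.dvd_sub
    · apply Dvd.dvd.add _ (dvd_refl 3)
      exact ⟨3 ^ b * m * (3 ^ b * 3 * m), by ring⟩
    · exact Dvd.intro _ rfl

/-- six `2 * 3 ^ b`-th roots of unity -/
theorem no_six_even (b : ℕ) (t : Fin 6 → ℂ) (ht : ∀ j, t j ^ (2 * 3 ^ b) = 1) :
    normSq (∑ j, t j) ≠ 6 := by
  refine no_six (2 * 3 ^ (b + 1)) (3 ^ b) (Nat.one_le_pow _ _ (by norm_num))
    (Or.inl (three_pow_dvd b)) t fun j => ?_
  rw [pow_succ 3 b, ← mul_assoc, pow_mul, ht, one_pow]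

theorem int_cases {a c : ℤ} (h : a ^ 2 + c ^ 2 = 1) :
    (a = 0 ∧ (c = 1 ∨ c = -1)) ∨ (c = 0 ∧ (a = 1 ∨ a = -1)) := by
  have ha : a ^ 2 ≤ 1 := by nlinarith [sq_nonneg c]
  have hc : c ^ 2 ≤ 1 := by nlinarith [sq_nonneg a]
  have ha1 : -1 ≤ a ∧ a ≤ 1 := by constructor <;> nlinarith
  have hc1 : -1 ≤ c ∧ c ≤ 1 := by constructor <;> nlinarith
  obtain ⟨ha1, ha2⟩ := ha1
  obtain ⟨hc1, hc2⟩ := hc1
  interval_cases a <;> interval_cases c <;> simp_all

theorem Rep.int (b : ℕ) {t w : Fin 6 → ℂ} {α β : Fin 6 → ℤ} (h : Rep b t α β w) (j : Fin 6) :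
    (α j = 0 ∧ (β j = 1 ∨ β j = -1)) ∨ (β j = 0 ∧ (α j = 1 ∨ α j = -1)) :=
  int_cases (h j).2.2

theorem Rep.norm_w (b : ℕ) {t w : Fin 6 → ℂ} {α β : Fin 6 → ℤ} (h : Rep b t α β w) (j : Fin 6) :
    w j * (starRingEnd ℂ) (w j) = 1 := by
  have h1 : ‖w j‖ = 1 := Complex.norm_eq_one_of_pow_eq_one (h j).2.1 (by positivity)
  rw [Complex.mul_conj, Complex.normSq_eq_norm_sq, h1]
  simp

theorem Rep.mul (b : ℕ) {t w g w' : Fin 6 → ℂ} {α β γ δ : Fin 6 → ℤ} (h : Rep b t α β w)
    (h' : Rep b g γ δ w') :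
    Rep b (fun j => (starRingEnd ℂ) (g j) * t j) (fun j => γ j * α j + δ j * β j)
      (fun j => γ j * β j - δ j * α j) (fun j => (starRingEnd ℂ) (w' j) * w j) := by
  intro j
  obtain ⟨h1, h2, h3⟩ := h j
  obtain ⟨h1', h2', h3'⟩ := h' j
  refine ⟨?_, ?_, ?_⟩
  · show (starRingEnd ℂ) (g j) * t j = _
    rw [h1, h1', map_mul, map_add, map_mul, conj_I, ← ofReal_intCast, ← ofReal_intCast (δ j),
      conj_ofReal, conj_ofReal]
    push_cast
    linear_combination (-((δ j : ℂ) * (β j : ℂ) * (starRingEnd ℂ) (w' j) * w j)) * I_sq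
  · show ((starRingEnd ℂ) (w' j) * w j) ^ 3 ^ b = 1
    rw [mul_pow, ← map_pow, h2, h2', map_one, mul_one]
  · show (γ j * α j + δ j * β j) ^ 2 + (γ j * β j - δ j * α j) ^ 2 = 1
    calc (γ j * α j + δ j * β j) ^ 2 + (γ j * β j - δ j * α j) ^ 2
        = (γ j ^ 2 + δ j ^ 2) * (α j ^ 2 + β j ^ 2) := by ring
      _ = 1 := by rw [h3, h3', mul_one]

theorem Rep.not_even (b : ℕ) {t w : Fin 6 → ℂ} {α β : Fin 6 → ℤ} (h : Rep b t α β w)
    (hs : normSq (∑ j, t j) = 6) : (∃ j, α j ≠ 0) ∧ ∃ j, β j ≠ 0 := by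
  constructor
  · by_contra hn
    push Not at hn
    refine no_six_even b (fun j => -I * t j) (fun j => ?_) ?_
    · show (-I * t j) ^ (2 * 3 ^ b) = 1
      obtain ⟨h1, h2, -⟩ := h j
      have hb : β j = 1 ∨ β j = -1 := by
        rcases h.int b j with h3 | h3
        · exact h3.2
        · exact absurd (hn j) (by rcases h3.2 with h4 | h4 <;> rw [h4] <;> norm_num)
      have e : (-I * t j) ^ 2 = w j ^ 2 := by
        rw [h1, hn j]
        rcases hb with h3 | h3 <;> rw [h3] <;> push_cast <;>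
          linear_combination (w j ^ 2 * (I ^ 2 - 1)) * I_sq
      rw [pow_mul, e, ← pow_mul, mul_comm, pow_mul, h2, one_pow]
    · show normSq (∑ j, -I * t j) = 6
      rw [← Finset.mul_sum, normSq_mul, hs, normSq_neg, normSq_I, one_mul]
  · by_contra hn
    push Not at hn
    refine no_six_even b t (fun j => ?_) hs
    obtain ⟨h1, h2, -⟩ := h j
    have hb : α j = 1 ∨ α j = -1 := by
      rcases h.int b j with h3 | h3
      · exact absurd (hn j) (by rcases h3.2 with h4 | h4 <;> rw [h4] <;> norm_num)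
      · exact h3.2
    have e : t j ^ 2 = w j ^ 2 := by
      rw [h1, hn j]
      rcases hb with h3 | h3 <;> rw [h3] <;> push_cast <;> ring
    rw [pow_mul, e, ← pow_mul, mul_comm, pow_mul, h2, one_pow]

/-- normalisation: exactly two odd places -/
theorem Rep.normalize (b : ℕ) {t w : Fin 6 → ℂ} {α β : Fin 6 → ℤ} (h : Rep b t α β w)
    (hc : (Finset.univ.filter fun j => β j ≠ 0).card = 2 ∨
      (Finset.univ.filter fun j => β j ≠ 0).card = 4) (hα : ∑ j, α j = 0) (hβ : ∑ j, β j = 0) :
    ∃ (c : ℂ) (α' β' : Fin 6 → ℤ), c * (starRingEnd ℂ) c = 1 ∧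
      Rep b (fun j => c * t j) α' β' w ∧
      (Finset.univ.filter fun j => β' j ≠ 0).card = 2 ∧ ∑ j, α' j = 0 ∧ ∑ j, β' j = 0 := by
  rcases hc with hc | hc
  · refine ⟨1, α, β, by simp, ?_, hc, hα, hβ⟩
    simpa using h
  · refine ⟨I, fun j => -β j, α, by simp, ?_, ?_, ?_, hα⟩
    · intro j
      obtain ⟨h1, h2, h3⟩ := h j
      refine ⟨?_, h2, ?_⟩
      · show I * t j = _
        rw [h1]
        push_cast
        linear_combination ((β j : ℂ) * w j) * I_sq
      · show (-β j) ^ 2 + α j ^ 2 = 1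
        linarith [h3, neg_sq (β j)]
    · have e : (Finset.univ.filter fun j => α j ≠ 0) =
          (Finset.univ.filter fun j => β j ≠ 0)ᶜ := by
        ext j
        simp only [Finset.mem_filter, Finset.mem_univ, true_and, Finset.mem_compl]
        rcases h.int b j with h3 | h3
        · obtain ⟨h4, h5⟩ := h3
          rcases h5 with h5 | h5 <;> simp [h4, h5]
        · obtain ⟨h4, h5⟩ := h3
          rcases h5 with h5 | h5 <;> simp [h4, h5]
      rw [e, Finset.card_compl, hc]
      rfl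
    · rw [Finset.sum_neg_distrib, hβ, neg_zero]

/-- the ratio at the two odd places -/
theorem special (b : ℕ) {t w : Fin 6 → ℂ} {α β : Fin 6 → ℤ} (h : Rep b t α β w)
    (hs : normSq (∑ j, t j) = 6) {p q : Fin 6} (hpq : p ≠ q)
    (hD : (Finset.univ.filter fun j => β j ≠ 0) = {p, q}) (hα : ∑ j, α j = 0)
    (hβ : ∑ j, β j = 0) :
    β p * β q = -1 ∧ w p ^ 2 + w p * w q + w q ^ 2 = 0 := by
  have hmem : ∀ j, β j ≠ 0 ↔ j = p ∨ j = q := by
    intro j
    have : j ∈ (Finset.univ.filter fun j => β j ≠ 0) ↔ j ∈ ({p, q} : Finset (Fin 6)) := by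
      rw [hD]
    simpa using this
  have hsum : ∀ f : Fin 6 → ℂ, ∑ j, (β j : ℂ) * f j = (β p : ℂ) * f p + (β q : ℂ) * f q := by
    intro f
    rw [← Finset.sum_pair (f := fun j => (β j : ℂ) * f j) hpq]
    symm
    apply Finset.sum_subset (Finset.subset_univ _)
    intro j _ hj
    have h1 : ¬ (j = p ∨ j = q) := by simpa using hj
    have h2 : β j = 0 := by
      by_contra h3
      exact h1 ((hmem j).1 h3)
    rw [h2]
    simp
  have hβ' : β p + β q = 0 := by
    have h1 := hsum (fun _ => 1)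
    simp only [mul_one] at h1
    have h2 : (((∑ j, β j : ℤ)) : ℂ) = 0 := by rw [hβ]; simp
    push_cast at h2
    rw [h1] at h2
    exact_mod_cast h2
  have hβp : β p = 1 ∨ β p = -1 := by
    rcases h.int b p with h3 | h3
    · exact h3.2
    · exact absurd h3.1 ((hmem p).2 (Or.inl rfl))
  have hβq : β q = -β p := by linarith
  have hβ2 : (β p : ℂ) ^ 2 = 1 := by rcases hβp with h3 | h3 <;> rw [h3] <;> norm_num
  refine ⟨by rw [hβq]; rcases hβp with h3 | h3 <;> rw [h3] <;> norm_num, ?_⟩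
  obtain ⟨e1, e2⟩ := sep_norm b h hs
  set X := ∑ j, (α j : ℂ) * w j with hX
  have hY : ∑ j, (β j : ℂ) * w j = (β p : ℂ) * (w p - w q) := by
    rw [hsum, hβq]
    push_cast
    ring
  rw [hY] at e1 e2
  have hwp := h.norm_w b p
  have hwq := h.norm_w b q
  have hne : w p ≠ w q := by
    intro heq
    rw [heq, sub_self, mul_zero, zero_mul, add_zero] at e1
    have hX6 : normSq X = 6 := by
      rw [Complex.mul_conj] at e1
      exact_mod_cast e1
    let t' : Fin 6 → ℂ := fun j => if j = p then w p else if j = q then -w p else (α j : ℂ) * w j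
    have ht' : ∑ j, t' j = X := by
      have h0 : ∑ j, (t' j - (α j : ℂ) * w j) = 0 := by
        rw [← Finset.sum_subset (Finset.subset_univ ({p, q} : Finset (Fin 6)))]
        · rw [Finset.sum_pair hpq]
          have hαp : α p = 0 := by
            rcases h.int b p with h3 | h3
            · exact h3.1
            · exact absurd h3.1 ((hmem p).2 (Or.inl rfl))
          have hαq : α q = 0 := by
            rcases h.int b q with h3 | h3
            · exact h3.1
            · exact absurd h3.1 ((hmem q).2 (Or.inr rfl))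
          simp [t', hαp, hαq, hpq.symm]
        · intro j _ hj
          have h1 : ¬ (j = p ∨ j = q) := by simpa using hj
          push Not at h1
          simp [t', h1.1, h1.2]
      rw [Finset.sum_sub_distrib, sub_eq_zero] at h0
      exact h0
    refine no_six_even b t' (fun j => ?_) (by rw [ht']; exact hX6)
    have hw2 : ∀ j, w j ^ (2 * 3 ^ b) = 1 := fun j => by
      rw [mul_comm, pow_mul, (h j).2.1, one_pow]
    show (if j = p then w p else if j = q then -w p else (α j : ℂ) * w j) ^ (2 * 3 ^ b) = 1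
    split_ifs with h1 h2
    · exact hw2 p
    · rw [pow_mul, neg_sq, ← pow_mul]
      exact hw2 p
    · have hαj : (α j : ℂ) ^ 2 = 1 := by
        rcases h.int b j with h3 | h3
        · exfalso
          have : β j ≠ 0 := by rcases h3.2 with h4 | h4 <;> rw [h4] <;> norm_num
          rcases (hmem j).1 this with h5 | h5
          · exact h1 h5
          · exact h2 h5
        · rcases h3.2 with h4 | h4 <;> rw [h4] <;> norm_num
      rw [mul_pow, hw2 j, mul_one, pow_mul, hαj, one_pow]
  -- the conjugates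
  have hcp : (starRingEnd ℂ) (w p - w q) =
      -(w p - w q) * ((starRingEnd ℂ) (w p) * (starRingEnd ℂ) (w q)) := by
    rw [map_sub]
    linear_combination (-(starRingEnd ℂ) (w p)) * hwq + (starRingEnd ℂ) (w q) * hwp
  have hβc : (starRingEnd ℂ) (β p : ℂ) = (β p : ℂ) := by
    rw [← ofReal_intCast, conj_ofReal]
  rw [map_mul, hβc, hcp] at e1 e2
  have hdne : w p - w q ≠ 0 := sub_ne_zero.2 hne
  have hXc : (starRingEnd ℂ) X = -X * ((starRingEnd ℂ) (w p) * (starRingEnd ℂ) (w q)) := by
    have hβ0 : (β p : ℂ) ≠ 0 := by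
      intro h0
      rw [h0] at hβ2
      norm_num at hβ2
    have h3 : (starRingEnd ℂ) X * ((β p : ℂ) * (w p - w q)) =
        (-X * ((starRingEnd ℂ) (w p) * (starRingEnd ℂ) (w q))) * ((β p : ℂ) * (w p - w q)) := by
      rw [← e2]
      ring
    exact mul_right_cancel₀ (mul_ne_zero hβ0 hdne) h3
  rw [hXc] at e1
  apply desc b w α (w p) (w q) (fun j => (h j).2.1) (h p).2.1 (h q).2.1 hne hα
  show X ^ 2 + (w p - w q) ^ 2 = -6 * (w p * w q)
  have e3 : w p * w q * ((starRingEnd ℂ) (w p) * (starRingEnd ℂ) (w q)) = 1 := by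
    linear_combination w q * (starRingEnd ℂ) (w q) * hwp + hwq
  linear_combination (-(w p * w q)) * e1 - (X ^ 2 + (w p - w q) ^ 2) * e3 +
    (w p - w q) ^ 2 * (w p * w q * ((starRingEnd ℂ) (w p) * (starRingEnd ℂ) (w q))) * hβ2 * (-1)

theorem core4 (b : ℕ) (t : Fin 6 → Fin 6 → ℂ) (g : Fin 6 → ℂ)
    (ht : ∀ u j, t u j ^ (4 * 3 ^ b) = 1) (hg : ∀ j, g j ^ (4 * 3 ^ b) = 1)
    (h1 : ∀ u, normSq (∑ j, t u j) = 6)
    (h2 : ∀ u, normSq (∑ j, (starRingEnd ℂ) (g j) * t u j) = 6)
    (h3 : normSq (∑ j, g j) = 6)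
    (h4 : ∀ u u', u ≠ u' → ∑ j, (starRingEnd ℂ) (t u j) * t u' j = 0)
    (h5 : ∀ p q, p ≠ q → ∑ u, t u p * (starRingEnd ℂ) (t u q) = 0) : False := by
  -- normalised representations
  obtain ⟨γ, δ, w', hg'⟩ := exists_rep b g hg
  have hex : ∀ u, ∃ (c : ℂ) (α β : Fin 6 → ℤ) (w : Fin 6 → ℂ), c * (starRingEnd ℂ) c = 1 ∧
      Rep b (fun j => c * t u j) α β w ∧
      (Finset.univ.filter fun j => β j ≠ 0).card = 2 ∧ ∑ j, α j = 0 ∧ ∑ j, β j = 0 := by
    intro u
    obtain ⟨α, β, w, hr⟩ := exists_rep b (t u) (ht u)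
    have hgr := hr.mul b hg'
    obtain ⟨n1, n2⟩ := hr.not_even b (h1 u)
    obtain ⟨n3, n4⟩ := hg'.not_even b h3
    obtain ⟨n5, n6⟩ := hgr.not_even b (h2 u)
    obtain ⟨d1, d2⟩ := three_dvd b hr (Or.inl (h1 u))
    obtain ⟨d3, d4⟩ := three_dvd b hg' (Or.inl h3)
    obtain ⟨d5, d6⟩ := three_dvd b hgr (Or.inl (h2 u))
    obtain ⟨hc, hα, hβ⟩ := two_or_four α β γ δ (fun j => (hr j).2.2) (fun j => (hg' j).2.2)
      d1 d2 d3 d4 d5 d6 n1 n2 n3 n4 n5 n6
    obtain ⟨c, α', β', hcc, hr', hc', hα', hβ'⟩ := hr.normalize b hc hα hβ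
    exact ⟨c, α', β', w, hcc, hr', hc', hα', hβ'⟩
  choose c α β w hcc hr hcard hα hβ using hex
  have hs : ∀ u, normSq (∑ j, c u * t u j) = 6 := by
    intro u
    have hc1 : normSq (c u) = 1 := by
      have h := hcc u
      rw [Complex.mul_conj] at h
      exact_mod_cast h
    rw [← Finset.mul_sum, normSq_mul, hc1, one_mul, h1]
  -- the odd places of the first column
  obtain ⟨p, q, hpq, hD⟩ := Finset.card_eq_two.1 (hcard 0)
  have hsp : ∀ u, (Finset.univ.filter fun j => β u j ≠ 0) = {p, q} →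
      β u p * β u q = -1 ∧ w u p ^ 2 + w u p * w u q + w u q ^ 2 = 0 :=
    fun u hu => special b (hr u) (hs u) hpq hu (hα u) (hβ u)
  -- the odd places of the other columns meet `{p, q}`
  have hmeet : ∀ u, β u p ≠ 0 ∨ β u q ≠ 0 := by
    intro u
    by_contra hn
    push Not at hn
    have hu : u ≠ 0 := by
      rintro rfl
      have : p ∈ (Finset.univ.filter fun j => β 0 j ≠ 0) := by rw [hD]; simp
      exact (Finset.mem_filter.1 this).2 hn.1
    have hm := (hr u).mul b (hr 0)
    have hz : ∑ j, (starRingEnd ℂ) (c 0 * t 0 j) * (c u * t u j) = 0 := by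
      have e : ∀ j, (starRingEnd ℂ) (c 0 * t 0 j) * (c u * t u j) =
          ((starRingEnd ℂ) (c 0) * c u) * ((starRingEnd ℂ) (t 0 j) * t u j) := by
        intro j
        rw [map_mul]
        ring
      rw [Finset.sum_congr rfl fun j _ => e j, ← Finset.mul_sum, h4 0 u hu.symm, mul_zero]
    obtain ⟨d1, d2⟩ := three_dvd b hm (Or.inr hz)
    refine not_disjoint (α u) (β u) (α 0) (β 0) (fun j => (hr u j).2.2) (fun j => (hr 0 j).2.2)
      (hα u) (hβ u) (hα 0) (hβ 0) d1 d2 (hcard u) (hcard 0) ?_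
    intro j
    by_cases hj : β 0 j = 0
    · exact Or.inr hj
    · left
      have : j ∈ (Finset.univ.filter fun j => β 0 j ≠ 0) := by simp [hj]
      rw [hD] at this
      rcases Finset.mem_insert.1 this with rfl | h
      · exact hn.1
      · rw [Finset.mem_singleton] at h
        rw [h]
        exact hn.2
  -- the rows `p` and `q`
  let s : Fin 6 → ℂ := fun u => t u p * (starRingEnd ℂ) (t u q)
  have hrs : Rep b s (fun u => α u p * α u q + β u p * β u q)
      (fun u => β u p * α u q - α u p * β u q) (fun u => w u p * (starRingEnd ℂ) (w u q)) := by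
    intro u
    obtain ⟨e1₀, e2, e3⟩ := hr u p
    obtain ⟨e1₁, e2', e3'⟩ := hr u q
    have e1 : c u * t u p = ((α u p : ℂ) + (β u p : ℂ) * I) * w u p := e1₀
    have e1' : c u * t u q = ((α u q : ℂ) + (β u q : ℂ) * I) * w u q := e1₁
    refine ⟨?_, ?_, ?_⟩
    · show t u p * (starRingEnd ℂ) (t u q) = _
      have e4 : t u p * (starRingEnd ℂ) (t u q) =
          (c u * t u p) * (starRingEnd ℂ) (c u * t u q) := by
        rw [map_mul]
        linear_combination (-(t u p * (starRingEnd ℂ) (t u q))) * hcc u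
      rw [e4, e1, e1', map_mul, map_add, map_mul, conj_I, ← ofReal_intCast (α u q),
        ← ofReal_intCast (β u q), conj_ofReal, conj_ofReal]
      push_cast
      linear_combination (-((β u p : ℂ) * (β u q : ℂ) * (starRingEnd ℂ) (w u q) * w u p)) * I_sq
    · show (w u p * (starRingEnd ℂ) (w u q)) ^ 3 ^ b = 1
      rw [mul_pow, ← map_pow, e2, e2', map_one, mul_one]
    · show (α u p * α u q + β u p * β u q) ^ 2 + (β u p * α u q - α u p * β u q) ^ 2 = 1
      calc (α u p * α u q + β u p * β u q) ^ 2 + (β u p * α u q - α u p * β u q) ^ 2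
          = (α u p ^ 2 + β u p ^ 2) * (α u q ^ 2 + β u q ^ 2) := by ring
        _ = 1 := by rw [e3, e3', mul_one]
  have hzero := (sep_zero b hrs (h5 p q hpq)).1
  -- real parts
  have hre : ∀ u, 0 ≤ (((α u p * α u q + β u p * β u q : ℤ) : ℂ) *
      (w u p * (starRingEnd ℂ) (w u q))).re ∧ (u = 0 →
      0 < (((α u p * α u q + β u p * β u q : ℤ) : ℂ) *
      (w u p * (starRingEnd ℂ) (w u q))).re) := by
    intro u
    by_cases hb : β u p ≠ 0 ∧ β u q ≠ 0
    · have hDu : (Finset.univ.filter fun j => β u j ≠ 0) = {p, q} := by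
        symm
        apply Finset.eq_of_subset_of_card_le
        · intro j hj
          rw [Finset.mem_insert, Finset.mem_singleton] at hj
          rw [Finset.mem_filter]
          rcases hj with rfl | rfl
          · exact ⟨Finset.mem_univ _, hb.1⟩
          · exact ⟨Finset.mem_univ _, hb.2⟩
        · rw [hcard u, Finset.card_pair hpq]
      obtain ⟨f1, f2⟩ := hsp u hDu
      have hαp : α u p = 0 := by
        rcases (hr u).int b p with h | h
        · exact h.1
        · exact absurd h.1 hb.1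
      rw [hαp, zero_mul, zero_add, f1]
      -- the third root of unity
      have hwp := (hr u).norm_w b p
      have hwq := (hr u).norm_w b q
      set θ := w u p * (starRingEnd ℂ) (w u q) with hθ
      have hθc : (starRingEnd ℂ) θ = (starRingEnd ℂ) (w u p) * w u q := by
        rw [hθ, map_mul, Complex.conj_conj]
      have h6 : θ + (starRingEnd ℂ) θ = -1 := by
        rw [hθc, hθ]
        linear_combination ((starRingEnd ℂ) (w u p) * (starRingEnd ℂ) (w u q)) * f2 -
          (w u p * (starRingEnd ℂ) (w u q) + w u q * (starRingEnd ℂ) (w u q)) * hwp -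
          (w u q * (starRingEnd ℂ) (w u p) + 1) * hwq
      have h7 : θ.re = -(1 / 2) := by
        have h8 := congrArg Complex.re h6
        rw [add_re, conj_re, neg_re, one_re] at h8
        linarith
      have h9 : (((-1 : ℤ) : ℂ) * θ).re = 1 / 2 := by
        push_cast
        rw [neg_one_mul, neg_re, h7]
        norm_num
      rw [h9]
      exact ⟨by norm_num, fun _ => by norm_num⟩
    · have h6 : α u p * α u q + β u p * β u q = 0 := by
        rcases hmeet u with h | h
        · have hq : β u q = 0 := by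
            by_contra h'
            exact hb ⟨h, h'⟩
          have hp : α u p = 0 := by
            rcases (hr u).int b p with h' | h'
            · exact h'.1
            · exact absurd h'.1 h
          rw [hp, hq, zero_mul, mul_zero, zero_add]
        · have hp : β u p = 0 := by
            by_contra h'
            exact hb ⟨h', h⟩
          have hq : α u q = 0 := by
            rcases (hr u).int b q with h' | h'
            · exact h'.1
            · exact absurd h'.1 h
          rw [hp, hq, zero_mul, mul_zero, zero_add]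
      rw [h6]
      refine ⟨by simp, fun hu => ?_⟩
      exfalso
      apply hb
      rw [hu]
      constructor
      · have : p ∈ (Finset.univ.filter fun j => β 0 j ≠ 0) := by rw [hD]; simp
        exact (Finset.mem_filter.1 this).2
      · have : q ∈ (Finset.univ.filter fun j => β 0 j ≠ 0) := by rw [hD]; simp
        exact (Finset.mem_filter.1 this).2
  have hsum := congrArg Complex.re hzero
  rw [Complex.re_sum, zero_re] at hsum
  have hpos : 0 < ∑ u, (((α u p * α u q + β u p * β u q : ℤ) : ℂ) *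
      (w u p * (starRingEnd ℂ) (w u q))).re := by
    apply Finset.sum_pos'
    · exact fun u _ => (hre u).1
    · exact ⟨0, Finset.mem_univ _, (hre 0).2 rfl⟩
  exact absurd hsum hpos.ne'

end Vale.Agent.P355
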