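import Mathlib

/-! P355 (four bases): representation of `4 * 3 ^ b`-th roots of unity. -/

namespace Vale.Agent.P355

open Complex

/-- `t j = (α j + β j i) w j`, `α j + β j i` a fourth root of unity, `w j` a `3 ^ b`-th root of
unity. -/
def Rep (b : ℕ) (t : Fin 6 → ℂ) (α β : Fin 6 → ℤ) (w : Fin 6 → ℂ) : Prop :=
  ∀ j, t j = ((α j : ℂ) + (β j : ℂ) * I) * w j ∧ w j ^ 3 ^ b = 1 ∧ α j ^ 2 + β j ^ 2 = 1

end Vale.Agent.P355
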