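import Vale.Agent.P355.Main

/-! P355: two bases with phases third or fourth roots of unity. -/

namespace Vale.Agent.P355

open Complex

/-- an orthonormal basis from a complex Hadamard matrix -/
theorem exists_onb (T : Fin 6 → Fin 6 → ℂ) (h1 : ∀ i j, (starRingEnd ℂ) (T i j) * T i j = 1)
    (h0 : ∀ j k, j ≠ k → ∑ i, (starRingEnd ℂ) (T i j) * T i k = 0) :
    ∃ b : ONB, ∀ i j, inner ℂ ((EuclideanSpace.basisFun (Fin 6) ℂ) i) (b j) =
      T i j / (√6 : ℝ) := by
  let v : Fin 6 → EuclideanSpace ℂ (Fin 6) := fun j => WithLp.toLp 2 (fun i => T i j / (√6 : ℝ))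
  have h6 : ((√6 : ℝ) : ℂ) * ((√6 : ℝ) : ℂ) = 6 := by
    rw [← ofReal_mul, Real.mul_self_sqrt (by norm_num)]
    norm_num
  have h6' : ((√6 : ℝ) : ℂ) ≠ 0 := by
    intro h
    rw [h] at h6
    norm_num at h6
  have hin : ∀ j k, inner ℂ (v j) (v k) = (∑ i, (starRingEnd ℂ) (T i j) * T i k) / 6 := by
    intro j k
    rw [PiLp.inner_apply, Finset.sum_div]
    refine Finset.sum_congr rfl fun i _ => ?_
    show inner ℂ (T i j / (√6 : ℝ)) (T i k / (√6 : ℝ)) = _
    rw [RCLike.inner_apply, map_div₀, conj_ofReal, div_mul_div_comm, h6, mul_comm]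
  have hv : Orthonormal ℂ v := by
    rw [orthonormal_iff_ite]
    intro j k
    rw [hin]
    by_cases hjk : j = k
    · subst hjk
      simp only [h1, if_true]
      simp
    · rw [if_neg hjk, h0 j k hjk, zero_div]
  obtain ⟨b, hb⟩ := Orthonormal.exists_orthonormalBasis_extension_of_card_eq
    (𝕜 := ℂ) (E := EuclideanSpace ℂ (Fin 6)) (ι := Fin 6) (by simp) (v := v) (s := Set.univ)
    (hv.comp _ Subtype.val_injective)
  refine ⟨b, fun i j => ?_⟩
  rw [hb j (Set.mem_univ _), EuclideanSpace.basisFun_apply, EuclideanSpace.inner_single_left]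
  simp [v]

theorem hasSystem_two (N : ℕ) (T : Fin 6 → Fin 6 → ℂ) (hT : ∀ i j, T i j ^ N = 1) (hN : N ≠ 0)
    (h0 : ∀ j k, j ≠ k → ∑ i, (starRingEnd ℂ) (T i j) * T i k = 0) : HasSystem N 2 := by
  have hn : ∀ i j, ‖T i j‖ = 1 := fun i j => Complex.norm_eq_one_of_pow_eq_one (hT i j) hN
  obtain ⟨b, hb⟩ := exists_onb T (fun i j => by
    rw [mul_comm, Complex.mul_conj, Complex.normSq_eq_norm_sq, hn]
    simp) h0
  have hMU : MUO (EuclideanSpace.basisFun (Fin 6) ℂ) b := by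
    intro i j
    rw [hb, norm_div, hn, norm_real, Real.norm_of_nonneg (Real.sqrt_nonneg _), div_pow, one_pow,
      Real.sq_sqrt (by norm_num)]
  have hMU' : MUO b (EuclideanSpace.basisFun (Fin 6) ℂ) := by
    intro i j
    rw [← inner_conj_symm, RCLike.norm_conj]
    exact hMU j i
  have h6' : ((√6 : ℝ) : ℂ) ≠ 0 := by
    have : (√6 : ℝ) ≠ 0 := by positivity
    exact_mod_cast this
  refine ⟨![EuclideanSpace.basisFun (Fin 6) ℂ, b], 0, ?_, ?_⟩
  · intro r s hrs
    fin_cases r <;> fin_cases s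
    · exact absurd rfl hrs
    · exact hMU
    · exact hMU'
    · exact absurd rfl hrs
  · intro r hr
    fin_cases r
    · exact absurd rfl hr
    · intro i i' j
      show (inner ℂ ((EuclideanSpace.basisFun (Fin 6) ℂ) i) (b j) /
        inner ℂ ((EuclideanSpace.basisFun (Fin 6) ℂ) i') (b j)) ^ N = 1
      rw [hb, hb, div_div_div_cancel_right₀ h6', div_pow, hT, hT, div_one]

/-- exponents of a Hadamard matrix of order six with third roots of unity (Tao) -/
def E3 : Fin 6 → Fin 6 → ℕ :=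
  ![![0, 0, 0, 0, 0, 0], ![0, 0, 1, 1, 2, 2], ![0, 1, 0, 2, 2, 1], ![0, 1, 2, 0, 1, 2],
    ![0, 2, 2, 1, 0, 1], ![0, 2, 1, 2, 1, 0]]

/-- exponents of a Hadamard matrix of order six with fourth roots of unity -/
def E4 : Fin 6 → Fin 6 → ℕ :=
  ![![0, 0, 0, 0, 0, 0], ![0, 2, 1, 3, 3, 1], ![0, 1, 2, 1, 3, 3], ![0, 3, 1, 2, 1, 3],
    ![0, 3, 3, 1, 2, 1], ![0, 1, 3, 3, 1, 2]]

theorem two_of_three (N : ℕ) (hN : N ≠ 0) (h3 : 3 ∣ N) : HasSystem N 2 := by
  obtain ⟨z, hz⟩ : ∃ z : ℂ, IsPrimitiveRoot z 3 := ⟨_, Complex.isPrimitiveRoot_exp 3 (by norm_num)⟩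
  have hz3 : z ^ 3 = 1 := hz.pow_eq_one
  have hsum : 1 + z + z ^ 2 = 0 := by
    have h := hz.geom_sum_eq_zero (by norm_num)
    rw [Finset.sum_range_succ, Finset.sum_range_succ, Finset.sum_range_one] at h
    linear_combination h
  have hconj : (starRingEnd ℂ) z = z ^ 2 := by
    have hn : ‖z‖ = 1 := Complex.norm_eq_one_of_pow_eq_one hz3 (by norm_num)
    have h1 : z * (starRingEnd ℂ) z = 1 := by
      rw [Complex.mul_conj, Complex.normSq_eq_norm_sq, hn]
      simp
    calc (starRingEnd ℂ) z = z ^ 3 * (starRingEnd ℂ) z := by rw [hz3, one_mul]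
      _ = z ^ 2 * (z * (starRingEnd ℂ) z) := by ring
      _ = z ^ 2 := by rw [h1, mul_one]
  obtain ⟨m, rfl⟩ := h3
  refine hasSystem_two _ (fun i j => z ^ E3 i j) (fun i j => ?_) hN ?_
  · rw [← pow_mul, mul_comm, mul_assoc, pow_mul, hz3, one_pow]
  · have hz4 : z ^ 4 = z := by linear_combination z * hz3
    have hz5 : z ^ 5 = z ^ 2 := by linear_combination z ^ 2 * hz3
    have hz6 : z ^ 6 = 1 := by linear_combination (z ^ 3 + 1) * hz3
    intro j k hjk
    simp only [map_pow, hconj, ← pow_mul, ← pow_add]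
    rw [Fin.sum_univ_six]
    fin_cases j <;> fin_cases k <;> first | exact absurd rfl hjk | skip
    all_goals
      simp [E3, hz3, hz4, hz5, hz6]
      linear_combination 2 * hsum

theorem two_of_four (N : ℕ) (hN : N ≠ 0) (h4 : 4 ∣ N) : HasSystem N 2 := by
  obtain ⟨m, rfl⟩ := h4
  refine hasSystem_two _ (fun i j => I ^ E4 i j) (fun i j => ?_) hN ?_
  · rw [← pow_mul, mul_comm, mul_assoc, pow_mul, I_pow_four, one_pow]
  · intro j k hjk
    rw [Fin.sum_univ_six]
    fin_cases j <;> fin_cases k <;> first | exact absurd rfl hjk | skip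
    all_goals
      simp [E4, I_pow_three, I_sq]
      try ring_nf
      try simp [I_sq]
      try norm_num

end Vale.Agent.P355
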