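import Vale.Agent.P355.RepDefs
import Vale.Agent.P355.Two

/-! P355 (four bases): skeleton, all `sorry`; never imported by a hand-in. -/

namespace Vale.Agent.P355.Skel4

open Complex Vale.Agent.P355

/-- ROW REP (helper18). -/
theorem exists_rep (b : ℕ) (t : Fin 6 → ℂ) (ht : ∀ j, t j ^ (4 * 3 ^ b) = 1) :
    ∃ (α β : Fin 6 → ℤ) (w : Fin 6 → ℂ), Rep b t α β w := sorry

/-- ROW MOD3. Quotient of `integralClosure ℤ ℂ` by a maximal ideal containing `3`: `w ↦ 1`,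
`i ↦ ι` with `ι ^ 2 = -1`, so `|S|^2 ↦ A ^ 2 + B ^ 2`, and `3 ∣ A ^ 2 + B ^ 2`. -/
theorem three_dvd (b : ℕ) {t w : Fin 6 → ℂ} {α β : Fin 6 → ℤ} (h : Rep b t α β w)
    (hs : normSq (∑ j, t j) = 6 ∨ ∑ j, t j = 0) : 3 ∣ ∑ j, α j ∧ 3 ∣ ∑ j, β j := sorry

/-- ROW SEP. `i` and `-i` are conjugate over the field of `3 ^ b`-th roots of unity
(`IsPrimitiveRoot.minpoly_eq_pow_coprime` for a primitive `4 * 3 ^ b`-th root and `m ≡ -1 mod 4`,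
`m ≡ 1 mod 3 ^ b`). -/
theorem sep_zero (b : ℕ) {t w : Fin 6 → ℂ} {α β : Fin 6 → ℤ} (h : Rep b t α β w)
    (hs : ∑ j, t j = 0) : ∑ j, (α j : ℂ) * w j = 0 ∧ ∑ j, (β j : ℂ) * w j = 0 := sorry

theorem sep_norm (b : ℕ) {t w : Fin 6 → ℂ} {α β : Fin 6 → ℤ} (h : Rep b t α β w)
    (hs : normSq (∑ j, t j) = 6) :
    (∑ j, (α j : ℂ) * w j) * (starRingEnd ℂ) (∑ j, (α j : ℂ) * w j) +
      (∑ j, (β j : ℂ) * w j) * (starRingEnd ℂ) (∑ j, (β j : ℂ) * w j) = 6 ∧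
    (∑ j, (α j : ℂ) * w j) * (starRingEnd ℂ) (∑ j, (β j : ℂ) * w j) =
      (starRingEnd ℂ) (∑ j, (α j : ℂ) * w j) * (∑ j, (β j : ℂ) * w j) := sorry

/-- ROW DESC (the number theory). `X = Σ c_j w_j` with integers `c_j`, `Σ c_j = 0`,
`X ^ 2 + (v - v') ^ 2 = -6 v v'`, all `w_j, v, v'` are `3 ^ b`-th roots of unity, `v ≠ v'`:
then `v / v'` is a primitive third root of unity.
PROOF. `λ = 1 - ζ`, `ζ` a primitive `3 ^ b`-th root of unity, `M` a maximal ideal of all algebraic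
integers with `3 ∈ M`; `x = P(ζ)` with `P(1) = m` is `≡ m` mod `M`, and `x ∈ M` implies `λ ∣ x` in
`ℤ[ζ]`. So if `λ ^ (2 k)` times an element of `M` equals `X ^ 2 + Y ^ 2`, `X = λ ^ k X'`,
`Y = λ ^ k Y'`, then `3 ∣ m ^ 2 + n ^ 2`, so `λ ∣ X', Y'`. As `3` is associated to
`λ ^ (2 * 3 ^ (b - 1))` one gets `λ ^ (3 ^ (b-1)) ∣ Y`, i.e. `(1 - ω) ∣ v - v'`; if `θ = v / v'` has
order `3 ^ c`, `c ≥ 2`, then `1 - ω' = (1 - θ) (1 + θ + ... + θ ^ (3^(c-1) - 1))` and the last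
factor is in `M`, contradiction. -/
theorem desc (b : ℕ) (w : Fin 6 → ℂ) (c : Fin 6 → ℤ) (v v' : ℂ) (hw : ∀ j, w j ^ 3 ^ b = 1)
    (hv : v ^ 3 ^ b = 1) (hv' : v' ^ 3 ^ b = 1) (hne : v ≠ v') (hc : ∑ j, c j = 0)
    (h : (∑ j, (c j : ℂ) * w j) ^ 2 + (v - v') ^ 2 = -6 * (v * v')) :
    v ^ 2 + v * v' + v' ^ 2 = 0 := sorry

/-- ROW L1 (combinatorics). -/
theorem two_or_four (α β γ δ : Fin 6 → ℤ) (h1 : ∀ j, α j ^ 2 + β j ^ 2 = 1)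
    (h2 : ∀ j, γ j ^ 2 + δ j ^ 2 = 1) (hα : 3 ∣ ∑ j, α j) (hβ : 3 ∣ ∑ j, β j)
    (hγ : 3 ∣ ∑ j, γ j) (hδ : 3 ∣ ∑ j, δ j) (hA : 3 ∣ ∑ j, (γ j * α j + δ j * β j))
    (hB : 3 ∣ ∑ j, (γ j * β j - δ j * α j))
    (n1 : ∃ j, α j ≠ 0) (n2 : ∃ j, β j ≠ 0) (n3 : ∃ j, γ j ≠ 0) (n4 : ∃ j, δ j ≠ 0)
    (n5 : ∃ j, γ j * α j + δ j * β j ≠ 0) (n6 : ∃ j, γ j * β j - δ j * α j ≠ 0) :
    ((Finset.univ.filter fun j => β j ≠ 0).card = 2 ∨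
      (Finset.univ.filter fun j => β j ≠ 0).card = 4) ∧ ∑ j, α j = 0 ∧ ∑ j, β j = 0 := sorry

/-- ROW L3 (combinatorics): the odd places of two orthogonal words are not disjoint. -/
theorem not_disjoint (α β γ δ : Fin 6 → ℤ) (h1 : ∀ j, α j ^ 2 + β j ^ 2 = 1)
    (h2 : ∀ j, γ j ^ 2 + δ j ^ 2 = 1) (hα : ∑ j, α j = 0) (hβ : ∑ j, β j = 0)
    (hγ : ∑ j, γ j = 0) (hδ : ∑ j, δ j = 0) (hA : 3 ∣ ∑ j, (γ j * α j + δ j * β j))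
    (hB : 3 ∣ ∑ j, (γ j * β j - δ j * α j))
    (c1 : (Finset.univ.filter fun j => β j ≠ 0).card = 2)
    (c2 : (Finset.univ.filter fun j => δ j ≠ 0).card = 2)
    (hd : ∀ j, β j = 0 ∨ δ j = 0) : False := sorry

/-- ROW THREE: three bases, e.g. `I`, `F₂ ⊗ F₃`, `(D₂ F₂) ⊗ (D₃ F₃)`, `D₂ = diag(1, i)`,
`D₃ = diag(1, ω, ω)` (use `exists_onb` of `Two.lean`). -/
theorem three_of_twelve (N : ℕ) (hN : N ≠ 0) (h12 : 12 ∣ N) : HasSystem N 3 := sorry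

end Vale.Agent.P355.Skel4
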