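import Vale.Agent.P355.Two

/-! P355: three bases with phases twelfth roots of unity. -/

namespace Vale.Agent.P355

open Complex

/-- coefficients of the powers of a primitive twelfth root of unity -/
def co12 (e : ℕ) : Fin 4 → ℤ :=
  match e % 12 with
  | 0 => ![1, 0, 0, 0]
  | 1 => ![0, 1, 0, 0]
  | 2 => ![0, 0, 1, 0]
  | 3 => ![0, 0, 0, 1]
  | 4 => ![-1, 0, 1, 0]
  | 5 => ![0, -1, 0, 1]
  | 6 => ![-1, 0, 0, 0]
  | 7 => ![0, -1, 0, 0]
  | 8 => ![0, 0, -1, 0]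
  | 9 => ![0, 0, 0, -1]
  | 10 => ![1, 0, -1, 0]
  | _ => ![0, 1, 0, -1]

theorem pow_co12 (z : ℂ) (hz : z ^ 4 = z ^ 2 - 1) (e : ℕ) :
    z ^ e = ∑ l : Fin 4, (co12 e l : ℂ) * z ^ (l : ℕ) := by
  have h6 : z ^ 6 = -1 := by linear_combination (z ^ 2 + 1) * hz
  have h12 : z ^ 12 = 1 := by linear_combination (z ^ 6 - 1) * h6
  have he : z ^ e = z ^ (e % 12) := by
    conv_lhs => rw [← Nat.div_add_mod e 12]
    rw [pow_add, pow_mul, h12, one_pow, one_mul]
  rw [he, Fin.sum_univ_four]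
  have hlt : e % 12 < 12 := Nat.mod_lt _ (by norm_num)
  unfold co12
  generalize e % 12 = r at hlt
  interval_cases r <;> simp
  · linear_combination hz
  · linear_combination z * hz
  · linear_combination h6
  · linear_combination z * h6
  · linear_combination z ^ 2 * h6
  · linear_combination z ^ 3 * h6
  · linear_combination z ^ 4 * h6 - hz
  · linear_combination z ^ 5 * h6 - z * hz

theorem sum_co12 (z : ℂ) (hz : z ^ 4 = z ^ 2 - 1) {ι : Type} (s : Finset ι) (f : ι → ℕ) :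
    ∑ i ∈ s, z ^ f i = ∑ l : Fin 4, ((∑ i ∈ s, co12 (f i) l : ℤ) : ℂ) * z ^ (l : ℕ) := by
  calc ∑ i ∈ s, z ^ f i = ∑ i ∈ s, ∑ l : Fin 4, (co12 (f i) l : ℂ) * z ^ (l : ℕ) :=
        Finset.sum_congr rfl fun i _ => pow_co12 z hz (f i)
    _ = _ := by
        rw [Finset.sum_comm]
        refine Finset.sum_congr rfl fun l _ => ?_
        rw [Int.cast_sum, Finset.sum_mul]

/-- exponents of `F₂ ⊗ F₃` -/
def EA (i j : Fin 6) : ℕ := 6 * (i.1 / 3) * (j.1 / 3) + 4 * (i.1 % 3) * (j.1 % 3)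

/-- exponents of `D₂ F₂ ⊗ D₃ F₃` -/
def EB (i j : Fin 6) : ℕ :=
  3 * (i.1 / 3) + 4 * ((i.1 % 3 + 1) / 2) + 6 * (i.1 / 3) * (j.1 / 3) +
    4 * (i.1 % 3) * (j.1 % 3)

theorem EA_orth : ∀ j k : Fin 6, j ≠ k → ∀ l : Fin 4,
    ∑ i : Fin 6, co12 (11 * EA i j + EA i k) l = 0 := by decide +kernel

theorem EB_orth : ∀ j k : Fin 6, j ≠ k → ∀ l : Fin 4,
    ∑ i : Fin 6, co12 (11 * EB i j + EB i k) l = 0 := by decide +kernel

theorem EAB_unb : ∀ j k : Fin 6, ∀ l : Fin 4,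
    ∑ p : Fin 6 × Fin 6, co12 ((11 * EA p.1 j + EB p.1 k) + 11 * (11 * EA p.2 j + EB p.2 k)) l
      = if l = 0 then 6 else 0 := by decide +kernel

theorem exists_twelfth : ∃ z : ℂ, z ^ 4 = z ^ 2 - 1 ∧ z ^ 12 = 1 ∧
    (starRingEnd ℂ) z = z ^ 11 := by
  obtain ⟨z, hz⟩ : ∃ z : ℂ, IsPrimitiveRoot z 12 :=
    ⟨_, Complex.isPrimitiveRoot_exp 12 (by norm_num)⟩
  have h12 : z ^ 12 = 1 := hz.pow_eq_one
  have h6 : z ^ 6 = -1 := by
    have h : (z ^ 6 - 1) * (z ^ 6 + 1) = 0 := by linear_combination h12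
    rcases mul_eq_zero.1 h with h | h
    · exact absurd (hz.dvd_of_pow_eq_one 6 (by linear_combination h)) (by norm_num)
    · linear_combination h
  have h4 : z ^ 4 = z ^ 2 - 1 := by
    have h : (z ^ 2 + 1) * (z ^ 4 - z ^ 2 + 1) = 0 := by linear_combination h6
    rcases mul_eq_zero.1 h with h | h
    · exact absurd (hz.dvd_of_pow_eq_one 4 (by linear_combination (z ^ 2 - 1) * h)) (by norm_num)
    · linear_combination h
  refine ⟨z, h4, h12, ?_⟩
  have hn : ‖z‖ = 1 := Complex.norm_eq_one_of_pow_eq_one h12 (by norm_num)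
  have h1 : z * (starRingEnd ℂ) z = 1 := by
    rw [Complex.mul_conj, Complex.normSq_eq_norm_sq, hn]
    simp
  calc (starRingEnd ℂ) z = z ^ 12 * (starRingEnd ℂ) z := by rw [h12, one_mul]
    _ = z ^ 11 * (z * (starRingEnd ℂ) z) := by ring
    _ = z ^ 11 := by rw [h1, mul_one]

/-- ROW THREE. -/
theorem three_of_twelve (N : ℕ) (hN : N ≠ 0) (h12 : 12 ∣ N) : HasSystem N 3 := by
  obtain ⟨z, hz4, hz12, hzc⟩ := exists_twelfth
  obtain ⟨m, rfl⟩ := h12
  have hcp : ∀ e : ℕ, (starRingEnd ℂ) (z ^ e) = z ^ (11 * e) := by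
    intro e
    rw [map_pow, hzc, ← pow_mul]
  have hroot : ∀ e : ℕ, (z ^ e) ^ (12 * m) = 1 := by
    intro e
    rw [← pow_mul, mul_comm, mul_assoc, pow_mul, hz12, one_pow]
  have hn : ∀ e : ℕ, ‖z ^ e‖ = 1 := fun e => Complex.norm_eq_one_of_pow_eq_one (hroot e) hN
  have horth : ∀ E : Fin 6 → Fin 6 → ℕ, (∀ j k : Fin 6, j ≠ k → ∀ l : Fin 4,
      ∑ i : Fin 6, co12 (11 * E i j + E i k) l = 0) →
      ∀ j k, j ≠ k → ∑ i, (starRingEnd ℂ) (z ^ E i j) * z ^ E i k = 0 := by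
    intro E hE j k hjk
    have h1 : ∀ i, (starRingEnd ℂ) (z ^ E i j) * z ^ E i k = z ^ (11 * E i j + E i k) := by
      intro i
      rw [hcp, pow_add]
    simp only [h1]
    rw [sum_co12 z hz4]
    refine Finset.sum_eq_zero fun l _ => ?_
    rw [hE j k hjk l, Int.cast_zero, zero_mul]
  have hone : ∀ e : ℕ, (starRingEnd ℂ) (z ^ e) * z ^ e = 1 := by
    intro e
    rw [mul_comm, Complex.mul_conj, Complex.normSq_eq_norm_sq, hn]
    simp
  obtain ⟨b, hb⟩ := exists_onb (fun i j => z ^ EA i j) (fun i j => hone _) (horth EA EA_orth)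
  obtain ⟨c, hc⟩ := exists_onb (fun i j => z ^ EB i j) (fun i j => hone _) (horth EB EB_orth)
  have hMU : ∀ (E : Fin 6 → Fin 6 → ℕ) (b : ONB), (∀ i j,
      inner ℂ ((EuclideanSpace.basisFun (Fin 6) ℂ) i) (b j) = z ^ E i j / (√6 : ℝ)) →
      MUO (EuclideanSpace.basisFun (Fin 6) ℂ) b := by
    intro E b hb i j
    rw [hb, norm_div, hn, norm_real, Real.norm_of_nonneg (Real.sqrt_nonneg _), div_pow, one_pow,
      Real.sq_sqrt (by norm_num)]
  have hsymm : ∀ b c : ONB, MUO b c → MUO c b := by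
    intro b c h i j
    rw [← inner_conj_symm, RCLike.norm_conj]
    exact h j i
  have h66 : ((√6 : ℝ) : ℂ) * ((√6 : ℝ) : ℂ) = 6 := by
    rw [← ofReal_mul, Real.mul_self_sqrt (by norm_num)]
    norm_num
  have hbc : MUO b c := by
    intro j k
    have h1 : (inner ℂ (b j) (c k) : ℂ) = (∑ i, z ^ (11 * EA i j + EB i k)) / 6 := by
      rw [← (EuclideanSpace.basisFun (Fin 6) ℂ).sum_inner_mul_inner (b j) (c k), Finset.sum_div]
      refine Finset.sum_congr rfl fun i _ => ?_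
      rw [← inner_conj_symm, hb, hc, map_div₀, conj_ofReal, hcp, div_mul_div_comm, h66,
        ← pow_add]
    have h2 : (∑ i, z ^ (11 * EA i j + EB i k)) *
        (starRingEnd ℂ) (∑ i, z ^ (11 * EA i j + EB i k)) = 6 := by
      rw [map_sum]
      simp only [hcp]
      rw [Finset.sum_mul_sum, ← Finset.sum_product']
      simp only [← pow_add]
      rw [sum_co12 z hz4]
      have h3 := EAB_unb j k
      simp only [Finset.univ_product_univ, h3]
      rw [Fin.sum_univ_four]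
      simp
    have h4 : ‖∑ i, z ^ (11 * EA i j + EB i k)‖ ^ 2 = 6 := by
      rw [Complex.mul_conj, Complex.normSq_eq_norm_sq] at h2
      exact_mod_cast h2
    rw [h1, norm_div, div_pow, h4]
    norm_num
  have h6' : ((√6 : ℝ) : ℂ) ≠ 0 := by
    have : (√6 : ℝ) ≠ 0 := by positivity
    exact_mod_cast this
  have hph : ∀ (E : Fin 6 → Fin 6 → ℕ) (b : ONB), (∀ i j,
      inner ℂ ((EuclideanSpace.basisFun (Fin 6) ℂ) i) (b j) = z ^ E i j / (√6 : ℝ)) →
      PhasesIn (12 * m) (EuclideanSpace.basisFun (Fin 6) ℂ) b := by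
    intro E b hb i i' j
    rw [hb, hb, div_div_div_cancel_right₀ h6', div_pow, hroot, hroot, div_one]
  have hb1 := hMU EA b hb
  have hc1 := hMU EB c hc
  refine ⟨![EuclideanSpace.basisFun (Fin 6) ℂ, b, c], 0, ?_, ?_⟩
  · intro r s hrs
    fin_cases r <;> fin_cases s
    · exact absurd rfl hrs
    · exact hb1
    · exact hc1
    · exact hsymm _ _ hb1
    · exact absurd rfl hrs
    · exact hbc
    · exact hsymm _ _ hc1
    · exact hsymm _ _ hbc
    · exact absurd rfl hrs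
  · intro r hr
    fin_cases r
    · exact absurd rfl hr
    · exact hph EA b hb
    · exact hph EB c hc

end Vale.Agent.P355
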