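import Vale.Agent.P355.Defs

/-! P355: three bases with phases twelfth roots of unity, plain form. -/

namespace Vale.Agent.P355

namespace ThreeP

open Complex

/-- coefficients of the powers of a primitive twelfth root of unity -/
def co12 (e : ℕ) : Fin 4 → ℤ :=
  match e % 12 with
  | 0 => ![1, 0, 0, 0]
  | 1 => ![0, 1, 0, 0]
  | 2 => ![0, 0, 1, 0]
  | 3 => ![0, 0, 0, 1]
  | 4 => ![-1, 0, 1, 0]
  | 5 => ![0, -1, 0, 1]
  | 6 => ![-1, 0, 0, 0]
  | 7 => ![0, -1, 0, 0]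
  | 8 => ![0, 0, -1, 0]
  | 9 => ![0, 0, 0, -1]
  | 10 => ![1, 0, -1, 0]
  | _ => ![0, 1, 0, -1]

theorem pow_co12 (z : ℂ) (hz : z ^ 4 = z ^ 2 - 1) (e : ℕ) :
    z ^ e = ∑ l : Fin 4, (co12 e l : ℂ) * z ^ (l : ℕ) := by
  have h6 : z ^ 6 = -1 := by linear_combination (z ^ 2 + 1) * hz
  have h12 : z ^ 12 = 1 := by linear_combination (z ^ 6 - 1) * h6
  have he : z ^ e = z ^ (e % 12) := by
    conv_lhs => rw [← Nat.div_add_mod e 12]
    rw [pow_add, pow_mul, h12, one_pow, one_mul]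
  rw [he, Fin.sum_univ_four]
  have hlt : e % 12 < 12 := Nat.mod_lt _ (by norm_num)
  unfold co12
  generalize e % 12 = r at hlt
  interval_cases r <;> simp
  · linear_combination hz
  · linear_combination z * hz
  · linear_combination h6
  · linear_combination z * h6
  · linear_combination z ^ 2 * h6
  · linear_combination z ^ 3 * h6
  · linear_combination z ^ 4 * h6 - hz
  · linear_combination z ^ 5 * h6 - z * hz

theorem sum_co12 (z : ℂ) (hz : z ^ 4 = z ^ 2 - 1) {ι : Type} (s : Finset ι) (f : ι → ℕ) :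
    ∑ i ∈ s, z ^ f i = ∑ l : Fin 4, ((∑ i ∈ s, co12 (f i) l : ℤ) : ℂ) * z ^ (l : ℕ) := by
  calc ∑ i ∈ s, z ^ f i = ∑ i ∈ s, ∑ l : Fin 4, (co12 (f i) l : ℂ) * z ^ (l : ℕ) :=
        Finset.sum_congr rfl fun i _ => pow_co12 z hz (f i)
    _ = _ := by
        rw [Finset.sum_comm]
        refine Finset.sum_congr rfl fun l _ => ?_
        rw [Int.cast_sum, Finset.sum_mul]

/-- exponents of `F₂ ⊗ F₃` -/
def EA (i j : Fin 6) : ℕ := 6 * (i.1 / 3) * (j.1 / 3) + 4 * (i.1 % 3) * (j.1 % 3)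

/-- exponents of `D₂ F₂ ⊗ D₃ F₃` -/
def EB (i j : Fin 6) : ℕ :=
  3 * (i.1 / 3) + 4 * ((i.1 % 3 + 1) / 2) + 6 * (i.1 / 3) * (j.1 / 3) +
    4 * (i.1 % 3) * (j.1 % 3)

theorem EA_orth : ∀ j k : Fin 6, j ≠ k → ∀ l : Fin 4,
    ∑ i : Fin 6, co12 (11 * EA i j + EA i k) l = 0 := by decide +kernel

theorem EB_orth : ∀ j k : Fin 6, j ≠ k → ∀ l : Fin 4,
    ∑ i : Fin 6, co12 (11 * EB i j + EB i k) l = 0 := by decide +kernel

theorem EAB_unb : ∀ j k : Fin 6, ∀ l : Fin 4,
    ∑ p : Fin 6 × Fin 6, co12 ((11 * EA p.1 j + EB p.1 k) + 11 * (11 * EA p.2 j + EB p.2 k)) l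
      = if l = 0 then 6 else 0 := by decide +kernel

theorem exists_twelfth : ∃ z : ℂ, z ^ 4 = z ^ 2 - 1 ∧ z ^ 12 = 1 ∧
    (starRingEnd ℂ) z = z ^ 11 := by
  obtain ⟨z, hz⟩ : ∃ z : ℂ, IsPrimitiveRoot z 12 :=
    ⟨_, Complex.isPrimitiveRoot_exp 12 (by norm_num)⟩
  have h12 : z ^ 12 = 1 := hz.pow_eq_one
  have h6 : z ^ 6 = -1 := by
    have h : (z ^ 6 - 1) * (z ^ 6 + 1) = 0 := by linear_combination h12
    rcases mul_eq_zero.1 h with h | h
    · exact absurd (hz.dvd_of_pow_eq_one 6 (by linear_combination h)) (by norm_num)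
    · linear_combination h
  have h4 : z ^ 4 = z ^ 2 - 1 := by
    have h : (z ^ 2 + 1) * (z ^ 4 - z ^ 2 + 1) = 0 := by linear_combination h6
    rcases mul_eq_zero.1 h with h | h
    · exact absurd (hz.dvd_of_pow_eq_one 4 (by linear_combination (z ^ 2 - 1) * h)) (by norm_num)
    · linear_combination h
  refine ⟨z, h4, h12, ?_⟩
  have hn : ‖z‖ = 1 := Complex.norm_eq_one_of_pow_eq_one h12 (by norm_num)
  have h1 : z * (starRingEnd ℂ) z = 1 := by
    rw [Complex.mul_conj, Complex.normSq_eq_norm_sq, hn]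
    simp
  calc (starRingEnd ℂ) z = z ^ 12 * (starRingEnd ℂ) z := by rw [h12, one_mul]
    _ = z ^ 11 * (z * (starRingEnd ℂ) z) := by ring
    _ = z ^ 11 := by rw [h1, mul_one]

end ThreeP

open Complex ThreeP in
/-- ROW THREE, plain form. -/
theorem three_plain : ∃ B : Fin 3 → Fin 6 → Fin 6 → ℂ, (∀ a a', a ≠ a' → MU (B a) (B a')) ∧
    ∀ a, a ≠ 0 → ∀ i i' j, (dot (B 0 i) (B a j) / dot (B 0 i') (B a j)) ^ 12 = 1 := by
  obtain ⟨z, hz4, hz12, hzc⟩ := exists_twelfth
  have hcp : ∀ e : ℕ, (starRingEnd ℂ) (z ^ e) = z ^ (11 * e) := by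
    intro e
    rw [map_pow, hzc, ← pow_mul]
  have hroot : ∀ e : ℕ, (z ^ e) ^ 12 = 1 := by
    intro e
    rw [← pow_mul, mul_comm, pow_mul, hz12, one_pow]
  have hn : ∀ e : ℕ, ‖z ^ e‖ = 1 := fun e =>
    Complex.norm_eq_one_of_pow_eq_one (hroot e) (by norm_num)
  have h66 : ((√6 : ℝ) : ℂ) * ((√6 : ℝ) : ℂ) = 6 := by
    rw [← ofReal_mul, Real.mul_self_sqrt (by norm_num)]
    norm_num
  have h6' : ((√6 : ℝ) : ℂ) ≠ 0 := by
    have : (√6 : ℝ) ≠ 0 := by positivity
    exact_mod_cast this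
  let V : (Fin 6 → Fin 6 → ℕ) → Fin 6 → Fin 6 → ℂ := fun E j i => z ^ E i j / (√6 : ℝ)
  let S : Fin 6 → Fin 6 → ℂ := fun i k => if k = i then 1 else 0
  have hdot : ∀ (E E' : Fin 6 → Fin 6 → ℕ) (j k : Fin 6),
      dot (V E j) (V E' k) = (∑ i, z ^ (11 * E i j + E' i k)) / 6 := by
    intro E E' j k
    unfold dot
    rw [Finset.sum_div]
    refine Finset.sum_congr rfl fun i _ => ?_
    show (starRingEnd ℂ) (z ^ E i j / (√6 : ℝ)) * (z ^ E' i k / (√6 : ℝ)) = _
    rw [map_div₀, conj_ofReal, hcp, div_mul_div_comm, h66, ← pow_add]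
  have hSS : IsONB S := by
    intro j k
    simp only [dot, S]
    rw [Finset.sum_eq_single j]
    · by_cases h : j = k
      · subst h
        simp
      · simp [h]
    · intro i _ hi
      simp [hi]
    · simp
  have hSV : ∀ (E : Fin 6 → Fin 6 → ℕ) (i j : Fin 6), dot (S i) (V E j) = z ^ E i j / (√6 : ℝ) := by
    intro E i j
    simp only [dot, S]
    rw [Finset.sum_eq_single i]
    · simp [V]
    · intro k _ hk
      simp [hk]
    · simp
  have hVS : ∀ (E : Fin 6 → Fin 6 → ℕ) (i j : Fin 6), dot (V E j) (S i) =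
      z ^ (11 * E i j) / (√6 : ℝ) := by
    intro E i j
    simp only [dot, S]
    rw [Finset.sum_eq_single i]
    · show (starRingEnd ℂ) (z ^ E i j / (√6 : ℝ)) * (if i = i then 1 else 0) = _
      rw [map_div₀, conj_ofReal, hcp, if_pos rfl, mul_one]
    · intro k _ hk
      simp [hk]
    · simp
  have hV : ∀ E : Fin 6 → Fin 6 → ℕ, (∀ j k : Fin 6, j ≠ k → ∀ l : Fin 4,
      ∑ i : Fin 6, co12 (11 * E i j + E i k) l = 0) → IsONB (V E) := by
    intro E hE j k
    rw [hdot]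
    by_cases hjk : j = k
    · subst hjk
      rw [if_pos rfl]
      have : ∀ i, z ^ (11 * E i j + E i j) = 1 := by
        intro i
        rw [show 11 * E i j + E i j = 12 * E i j by ring, pow_mul, hz12, one_pow]
      simp [this]
    · rw [if_neg hjk, sum_co12 z hz4, Finset.sum_eq_zero, zero_div]
      intro l _
      rw [hE j k hjk l, Int.cast_zero, zero_mul]
  have hn6 : ∀ e : ℕ, ‖z ^ e / ((√6 : ℝ) : ℂ)‖ ^ 2 = 1 / 6 := by
    intro e
    rw [norm_div, hn, norm_real, Real.norm_of_nonneg (Real.sqrt_nonneg _), div_pow, one_pow,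
      Real.sq_sqrt (by norm_num)]
  have hcross : ∀ j k, ‖∑ i, z ^ (11 * EA i j + EB i k)‖ ^ 2 = 6 := by
    intro j k
    have h2 : (∑ i, z ^ (11 * EA i j + EB i k)) *
        (starRingEnd ℂ) (∑ i, z ^ (11 * EA i j + EB i k)) = 6 := by
      rw [map_sum]
      simp only [hcp]
      rw [Finset.sum_mul_sum, ← Finset.sum_product']
      simp only [← pow_add]
      rw [sum_co12 z hz4]
      have h3 := EAB_unb j k
      simp only [Finset.univ_product_univ, h3]
      rw [Fin.sum_univ_four]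
      simp
    rw [Complex.mul_conj, Complex.normSq_eq_norm_sq] at h2
    exact_mod_cast h2
  have hA := hV EA EA_orth
  have hB := hV EB EB_orth
  have hsymm : ∀ b c : Fin 6 → Fin 6 → ℂ, MU b c → MU c b := by
    rintro b c ⟨h1, h2, h3⟩
    refine ⟨h2, h1, fun j k => ?_⟩
    have : dot (c j) (b k) = (starRingEnd ℂ) (dot (b k) (c j)) := by
      unfold dot
      rw [map_sum]
      refine Finset.sum_congr rfl fun i _ => ?_
      rw [map_mul, starRingEnd_apply, starRingEnd_apply, star_star, mul_comm]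
    rw [this, RCLike.norm_conj]
    exact h3 k j
  have m01 : MU S (V EA) := ⟨hSS, hA, fun j k => by rw [hSV]; exact hn6 _⟩
  have m02 : MU S (V EB) := ⟨hSS, hB, fun j k => by rw [hSV]; exact hn6 _⟩
  have m12 : MU (V EA) (V EB) := ⟨hA, hB, fun j k => by
    rw [hdot, norm_div, div_pow, hcross]
    norm_num⟩
  refine ⟨![S, V EA, V EB], ?_, ?_⟩
  · intro a a' haa
    fin_cases a <;> fin_cases a'
    · exact absurd rfl haa
    · exact m01
    · exact m02
    · exact hsymm _ _ m01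
    · exact absurd rfl haa
    · exact m12
    · exact hsymm _ _ m02
    · exact hsymm _ _ m12
    · exact absurd rfl haa
  · have hph : ∀ (E : Fin 6 → Fin 6 → ℕ) (i i' j : Fin 6),
        (dot (S i) (V E j) / dot (S i') (V E j)) ^ 12 = 1 := by
      intro E i i' j
      rw [hSV, hSV, div_div_div_cancel_right₀ h6', div_pow, hroot, hroot, div_one]
    intro a ha i i' j
    fin_cases a
    · exact absurd rfl ha
    · exact hph EA i i' j
    · exact hph EB i i' j

end Vale.Agent.P355
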