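import Vale.Agent.P355.Three
import Vale.Agent.P355.Defs4

/-! P355 (four bases): the triple, in plain coordinates. -/

namespace Vale.Agent.P355

open Complex

theorem dot_eq_inner (x y : EuclideanSpace ℂ (Fin 6)) :
    dot (fun i => x i) (fun i => y i) = inner ℂ x y := by
  rw [PiLp.inner_apply]
  unfold dot
  refine Finset.sum_congr rfl fun i _ => ?_
  rw [RCLike.inner_apply, mul_comm]
  rfl

theorem HasSystem.plain {N m : ℕ} (h : HasSystem N m) : HasBases N m := by
  obtain ⟨B, r, hB, hP⟩ := h
  have honb : ∀ a, IsONB (fun j i => B a j i) := by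
    intro a j k
    rw [dot_eq_inner]
    exact (orthonormal_iff_ite.1 (B a).orthonormal) j k
  refine ⟨fun a j i => B a j i, r, ?_, ?_⟩
  · intro a a' haa
    refine ⟨honb a, honb a', fun j k => ?_⟩
    rw [dot_eq_inner]
    exact hB a a' haa j k
  · intro a ha j i i'
    rw [dot_eq_inner, dot_eq_inner]
    exact hP a ha i i' j

theorem hasBases_three (N : ℕ) (hN : N ≠ 0) (h12 : 12 ∣ N) : HasBases N 3 :=
  (three_of_twelve N hN h12).plain

end Vale.Agent.P355
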