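import Vale.Agent.P355.Field

/-! P355: three mutually unbiased bases of `ℂ^6` do not have all their phases in `ℚ(ζ_N)`. -/

namespace Vale.Agent.P355

/-- two orthonormal bases of `ℂ^6` are mutually unbiased -/
def Unbiased (b c : OrthonormalBasis (Fin 6) ℂ (EuclideanSpace ℂ (Fin 6))) : Prop :=
  ∀ j k, ‖inner ℂ (b j) (c k)‖ ^ 2 = 1 / 6

theorem triple {N s : ℕ} (hs : 0 < s) (hN : N ∣ 2 ^ s + 1 ∨ N ∣ 3 ^ s + 1) {ζ : ℂ}
    (hζ : ζ ^ N = 1) {e b c : OrthonormalBasis (Fin 6) ℂ (EuclideanSpace ℂ (Fin 6))}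
    (h1 : Unbiased b e) (h2 : Unbiased e c) (h3 : Unbiased b c) (i₀ j k : Fin 6) :
    ∃ i, (inner ℂ (b j) (e i) * inner ℂ (e i) (c k)) /
      (inner ℂ (b j) (e i₀) * inner ℂ (e i₀) (c k)) ∉ Algebra.adjoin ℚ {ζ} := by
  by_contra hcon
  push Not at hcon
  have hmem := Subalgebra.sum_mem (Algebra.adjoin ℚ {ζ}) (fun i (_ : i ∈ Finset.univ) => hcon i)
  rw [← Finset.sum_div, e.sum_inner_mul_inner] at hmem
  have hval : (inner ℂ (b j) (c k) / (inner ℂ (b j) (e i₀) * inner ℂ (e i₀) (c k))) *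
      star (inner ℂ (b j) (c k) / (inner ℂ (b j) (e i₀) * inner ℂ (e i₀) (c k))) =
      ((6 : ℕ) : ℂ) := by
    have h4 : ∀ z : ℂ, z * star z = ((‖z‖ ^ 2 : ℝ) : ℂ) := by
      intro z
      have := Complex.mul_conj z
      rw [Complex.normSq_eq_norm_sq] at this
      exact this
    rw [h4, norm_div, norm_mul, div_pow, mul_pow, h1 j i₀, h2 i₀ k, h3 j k]
    norm_num
  rcases hN with hN | hN
  · exact Field.no_norm Nat.prime_two hs hN hζ (by norm_num) (by norm_num) hmem hval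
  · exact Field.no_norm Nat.prime_three hs hN hζ (by norm_num) (by norm_num) hmem hval

end Vale.Agent.P355
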